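import Mathlib.Analysis.MeanInequalitiesPow
import Mathlib.MeasureTheory.Integral.MeanInequalities
import Mathlib.MeasureTheory.Constructions.BorelSpace.Complex

/-! # P076 / DEC : planar `ℓ²L⁶` decoupling, abstract part (helper888)

`f m` (`m : ℤ`) are the pieces, `blk f p i` the sum over the dyadic block `[2^p i, 2^p (i+1))`.  The only input is the
bilinear orthogonality `BIL`; the conclusion is `ℓ²L⁶` decoupling with `2^(η j)` loss, for every `η > 0`. -/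

open MeasureTheory Set
open scoped ENNReal NNReal

set_option linter.all false

namespace Vale.Agent.P076.DEC

variable {Ω : Type*} [MeasurableSpace Ω]

/-- the dyadic block -/
noncomputable def bl (p : ℕ) (i : ℤ) : Finset ℤ := Finset.Ico (2 ^ p * i) (2 ^ p * (i + 1))

/-- children blocks of level `p - d` of the block `i` of level `p` -/
noncomputable def sub (d : ℕ) (i : ℤ) : Finset ℤ := Finset.Ico (2 ^ d * i) (2 ^ d * (i + 1))

/-- block sums -/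
noncomputable def blk (f : ℤ → Ω → ℂ) (p : ℕ) (i : ℤ) (z : Ω) : ℂ := ∑ m ∈ bl p i, f m z

/-- squared `L⁶` norm -/
noncomputable def n6 (μ : Measure Ω) (F : Ω → ℂ) : ℝ≥0∞ := (∫⁻ z, ‖F z‖ₑ ^ 6 ∂μ) ^ (1 / 3 : ℝ)

/-- square function sum of a block -/
noncomputable def sq (μ : Measure Ω) (f : ℤ → Ω → ℂ) (p : ℕ) (i : ℤ) : ℝ≥0∞ := ∑ m ∈ bl p i, n6 μ (f m)

/-- bilinear integral -/
noncomputable def bi (μ : Measure Ω) (F G : Ω → ℂ) : ℝ≥0∞ := ∫⁻ z, ‖F z‖ₑ ^ 2 * ‖G z‖ₑ ^ 4 ∂μ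

/-- separation of blocks by `2^s` -/
def Sep (s p : ℕ) (i : ℤ) (q : ℕ) (i' : ℤ) : Prop :=
  2 ^ p * (i + 1) + 2 ^ s ≤ 2 ^ q * i' ∨ 2 ^ q * (i' + 1) + 2 ^ s ≤ 2 ^ p * i

/-- bilinear orthogonality -/
def BIL (μ : Measure Ω) (f : ℤ → Ω → ℂ) (c s0 : ℕ) : Prop :=
  ∀ (p d q s r : ℕ) (i i' : ℤ), d ≤ p → s0 ≤ s → q ≤ s → 2 * q ≤ s + (p - d) + r → Sep s p i q i' →
    bi μ (blk f p i) (blk f q i') ≤ 2 ^ (c + r) * ∑ j ∈ sub d i, bi μ (blk f (p - d) j) (blk f q i')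

/-! ## dyadic blocks -/

lemma mem_bl {p : ℕ} {i m : ℤ} : m ∈ bl p i ↔ 2 ^ p * i ≤ m ∧ m < 2 ^ p * (i + 1) := by
  unfold bl; exact Finset.mem_Ico

lemma mem_sub {p : ℕ} {i m : ℤ} : m ∈ sub p i ↔ 2 ^ p * i ≤ m ∧ m < 2 ^ p * (i + 1) := by
  unfold sub; exact Finset.mem_Ico

lemma bl_zero (i : ℤ) : bl 0 i = {i} := by
  ext m; rw [mem_bl, Finset.mem_singleton]; simp; omega

lemma card_sub (d : ℕ) (i : ℤ) : (sub d i).card = 2 ^ d := by
  unfold sub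
  rw [Int.card_Ico]
  have : (2:ℤ) ^ d * (i + 1) - 2 ^ d * i = ((2 ^ d : ℕ) : ℤ) := by push_cast; ring
  rw [this, Int.toNat_natCast]

/-- blocks are unions of sub-blocks -/
lemma bl_biUnion {p d : ℕ} (h : d ≤ p) (i : ℤ) : bl p i = (sub d i).biUnion (bl (p - d)) := by
  ext m
  simp only [Finset.mem_biUnion, mem_bl, mem_sub]
  have e : (2:ℤ) ^ p = 2 ^ (p - d) * 2 ^ d := by rw [← pow_add]; congr 1; omega
  have hp : (0:ℤ) < 2 ^ (p - d) := by positivity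
  constructor
  · rintro ⟨h1, h2⟩
    refine ⟨m / 2 ^ (p - d), ⟨?_, ?_⟩, ?_, ?_⟩
    · rw [Int.le_ediv_iff_mul_le hp]; rw [e] at h1; linarith
    · rw [Int.ediv_lt_iff_lt_mul hp]; rw [e] at h2; linarith
    · exact Int.mul_ediv_self_le hp.ne'
    · have := Int.lt_ediv_add_one_mul_self m hp; linarith
  · rintro ⟨j, ⟨h1, h2⟩, h3, h4⟩
    rw [e]
    constructor
    · calc (2:ℤ) ^ (p - d) * 2 ^ d * i = 2 ^ (p - d) * (2 ^ d * i) := by ring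
        _ ≤ 2 ^ (p - d) * j := by gcongr
        _ ≤ m := h3
    · calc m < 2 ^ (p - d) * (j + 1) := h4
        _ ≤ 2 ^ (p - d) * (2 ^ d * (i + 1)) := by gcongr; omega
        _ = _ := by ring

lemma bl_disj {p : ℕ} {j j' : ℤ} (h : j ≠ j') : Disjoint (bl p j) (bl p j') := by
  rw [Finset.disjoint_left]
  intro m h1 h2
  rw [mem_bl] at h1 h2
  have hp : (0:ℤ) < 2 ^ p := by positivity
  rcases lt_or_gt_of_ne h with h' | h'
  · have : (2:ℤ) ^ p * (j + 1) ≤ 2 ^ p * j' := by gcongr; omega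
    linarith
  · have : (2:ℤ) ^ p * (j' + 1) ≤ 2 ^ p * j := by gcongr; omega
    linarith

lemma sum_bl {M : Type*} [AddCommMonoid M] {p d : ℕ} (h : d ≤ p) (i : ℤ) (F : ℤ → M) :
    ∑ m ∈ bl p i, F m = ∑ j ∈ sub d i, ∑ m ∈ bl (p - d) j, F m := by
  rw [bl_biUnion h, Finset.sum_biUnion]
  intro a _ b _ hab
  exact bl_disj hab

lemma blk_sum {p d : ℕ} (h : d ≤ p) (f : ℤ → Ω → ℂ) (i : ℤ) (z : Ω) :
    blk f p i z = ∑ j ∈ sub d i, blk f (p - d) j z := sum_bl h i fun m => f m z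

lemma sq_sum {p d : ℕ} (h : d ≤ p) (μ : Measure Ω) (f : ℤ → Ω → ℂ) (i : ℤ) :
    sq μ f p i = ∑ j ∈ sub d i, sq μ f (p - d) j := sum_bl h i fun m => n6 μ (f m)

lemma sq_le {p d : ℕ} (h : d ≤ p) (μ : Measure Ω) (f : ℤ → Ω → ℂ) {i j : ℤ} (hj : j ∈ sub d i) :
    sq μ f (p - d) j ≤ sq μ f p i := by
  rw [sq_sum h μ f i]
  exact Finset.single_le_sum (f := fun j => sq μ f (p - d) j) (fun _ _ => bot_le) hj

/-- separation is inherited by sub-blocks -/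
lemma Sep.mono_left {s p d q : ℕ} {i i' j : ℤ} (h : Sep s p i q i') (hd : d ≤ p) (hj : j ∈ sub d i) : Sep s (p - d) j q i' := by
  rw [mem_sub] at hj
  have e : (2:ℤ) ^ p = 2 ^ (p - d) * 2 ^ d := by rw [← pow_add]; congr 1; omega
  have hp : (0:ℤ) < 2 ^ (p - d) := by positivity
  have h1 : (2:ℤ) ^ p * i ≤ 2 ^ (p - d) * j := by
    rw [e, mul_assoc]; gcongr; exact hj.1
  have h2 : (2:ℤ) ^ (p - d) * (j + 1) ≤ 2 ^ p * (i + 1) := by
    rw [e, mul_assoc]; gcongr; linarith [hj.2]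
  rcases h with h | h
  · left; linarith
  · right; linarith

lemma Sep.symm {s p q : ℕ} {i i' : ℤ} (h : Sep s p i q i') : Sep s q i' p i := Or.symm h

/-- non adjacent children are separated -/
lemma sep_of_ne {j r : ℕ} {i i' : ℤ} (h : i + 2 ≤ i' ∨ i' + 2 ≤ i) : Sep (j - r) (j - r) i (j - r) i' := by
  have hp : (0:ℤ) < 2 ^ (j - r) := by positivity
  rcases h with h | h
  · left
    have : (2:ℤ) ^ (j - r) * (i + 2) ≤ 2 ^ (j - r) * i' := by gcongr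
    linarith
  · right
    have : (2:ℤ) ^ (j - r) * (i' + 2) ≤ 2 ^ (j - r) * i := by gcongr
    linarith

/-! ## pointwise inequalities -/

lemma pt_triv {ι : Type*} (s : Finset ι) (x : ι → ℝ≥0∞) (N : ℕ) (hN : s.card ≤ N) :
    (∑ i ∈ s, x i) ^ 6 ≤ (N:ℝ≥0∞) ^ 6 * ∑ i ∈ s, x i ^ 6 := by
  rcases s.eq_empty_or_nonempty with rfl | hs
  · simp
  obtain ⟨a, ha, hmax⟩ := s.exists_max_image x hs
  have h1 : ∑ i ∈ s, x i ≤ N * x a := by
    calc ∑ i ∈ s, x i ≤ ∑ _i ∈ s, x a := Finset.sum_le_sum hmax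
      _ = s.card * x a := by simp
      _ ≤ N * x a := by gcongr
  calc (∑ i ∈ s, x i) ^ 6 ≤ (N * x a) ^ 6 := by gcongr
    _ = (N:ℝ≥0∞) ^ 6 * x a ^ 6 := mul_pow _ _ _
    _ ≤ (N:ℝ≥0∞) ^ 6 * ∑ i ∈ s, x i ^ 6 := by
        gcongr
        exact Finset.single_le_sum (f := fun i => x i ^ 6) (fun _ _ => bot_le) ha

/-- non adjacent indices -/
def NA (i i' : ℤ) : Prop := i + 2 ≤ i' ∨ i' + 2 ≤ i

instance : DecidableRel NA := fun i i' => by unfold NA; infer_instance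

lemma pt_broad (s : Finset ℤ) (x : ℤ → ℝ≥0∞) (N : ℕ) (hN : s.card ≤ N) :
    (∑ i ∈ s, x i) ^ 6 ≤ 8 ^ 6 * ∑ i ∈ s, x i ^ 6 +
      (2 * N) ^ 6 * ∑ i ∈ s, ∑ i' ∈ s with NA i i', x i ^ 2 * x i' ^ 4 := by
  rcases s.eq_empty_or_nonempty with rfl | hs
  · simp
  obtain ⟨a, ha, hmax⟩ := s.exists_max_image x hs
  have hsplit := Finset.sum_filter_add_sum_filter_not s (fun i => NA a i) x
  set F := ∑ i ∈ s with NA a i, x i with hF
  set G := ∑ i ∈ s with ¬ NA a i, x i with hG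
  have hG3 : G ≤ 3 * x a := by
    have hc : (s.filter fun i => ¬ NA a i).card ≤ 3 := by
      have : (s.filter fun i => ¬ NA a i) ⊆ {a - 1, a, a + 1} := by
        intro i hi
        rw [Finset.mem_filter] at hi
        have h2 := hi.2
        unfold NA at h2
        simp only [Finset.mem_insert, Finset.mem_singleton]
        omega
      exact (Finset.card_le_card this).trans Finset.card_le_three
    calc G ≤ ∑ i ∈ s with ¬ NA a i, x a := Finset.sum_le_sum fun i hi => hmax i (Finset.mem_filter.1 hi).1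
      _ = ((s.filter fun i => ¬ NA a i).card : ℝ≥0∞) * x a := by simp
      _ ≤ 3 * x a := by gcongr; exact_mod_cast hc
  rcases le_or_gt F G with h | h
  · have h1 : ∑ i ∈ s, x i ≤ 8 * x a := by
      calc ∑ i ∈ s, x i = F + G := hsplit.symm
        _ ≤ 3 * x a + 3 * x a := add_le_add (h.trans hG3) hG3
        _ = 6 * x a := by ring
        _ ≤ 8 * x a := by gcongr; norm_num
    refine le_trans ?_ le_self_add
    calc (∑ i ∈ s, x i) ^ 6 ≤ (8 * x a) ^ 6 := by gcongr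
      _ = 8 ^ 6 * x a ^ 6 := mul_pow _ _ _
      _ ≤ 8 ^ 6 * ∑ i ∈ s, x i ^ 6 := by
          gcongr
          exact Finset.single_le_sum (f := fun i => x i ^ 6) (fun _ _ => bot_le) ha
  · have hne : (s.filter fun i => NA a i).Nonempty := by
      by_contra hcon
      rw [Finset.not_nonempty_iff_eq_empty] at hcon
      rw [hF, hcon] at h
      simp at h
    obtain ⟨b, hb, hbmax⟩ := (s.filter fun i => NA a i).exists_max_image x hne
    have hbs := (Finset.mem_filter.1 hb).1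
    have hFb : F ≤ N * x b := by
      calc F ≤ ∑ i ∈ s with NA a i, x b := Finset.sum_le_sum hbmax
        _ = ((s.filter fun i => NA a i).card : ℝ≥0∞) * x b := by simp
        _ ≤ N * x b := by
            gcongr
            exact_mod_cast (Finset.card_filter_le _ _).trans hN
    have h1 : ∑ i ∈ s, x i ≤ 2 * N * x b := by
      calc ∑ i ∈ s, x i = F + G := hsplit.symm
        _ ≤ F + F := by gcongr
        _ ≤ N * x b + N * x b := add_le_add hFb hFb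
        _ = 2 * N * x b := by ring
    refine le_trans ?_ le_add_self
    calc (∑ i ∈ s, x i) ^ 6 ≤ (2 * N * x b) ^ 6 := by gcongr
      _ = (2 * N) ^ 6 * (x b ^ 2 * x b ^ 4) := by rw [mul_pow]; ring
      _ ≤ (2 * N) ^ 6 * (x a ^ 2 * x b ^ 4) := by gcongr; exact hmax b hbs
      _ ≤ (2 * N) ^ 6 * ∑ i ∈ s, ∑ i' ∈ s with NA i i', x i ^ 2 * x i' ^ 4 := by
          gcongr
          calc x a ^ 2 * x b ^ 4 ≤ ∑ i' ∈ s with NA a i', x a ^ 2 * x i' ^ 4 :=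
                Finset.single_le_sum (f := fun i' => x a ^ 2 * x i' ^ 4) (fun _ _ => bot_le) hb
            _ ≤ _ := Finset.single_le_sum (f := fun i => ∑ i' ∈ s with NA i i', x i ^ 2 * x i' ^ 4)
                (fun _ _ => bot_le) ha

/-! ## integral inequalities -/

lemma third_sum {ι : Type*} (s : Finset ι) (a : ι → ℝ≥0∞) : (∑ i ∈ s, a i) ^ (1 / 3 : ℝ) ≤ ∑ i ∈ s, a i ^ (1 / 3 : ℝ) := by
  classical
  induction s using Finset.induction_on with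
  | empty => simp
  | insert i s hi ih =>
    rw [Finset.sum_insert hi, Finset.sum_insert hi]
    exact (ENNReal.rpow_add_le_add_rpow _ _ (by norm_num) (by norm_num)).trans (add_le_add le_rfl ih)

lemma third_six (a : ℝ≥0∞) : (a ^ 6) ^ (1 / 3 : ℝ) = a ^ 2 := by
  rw [← ENNReal.rpow_natCast, ← ENNReal.rpow_mul, ← ENNReal.rpow_natCast]; norm_num

lemma n6_cube (μ : Measure Ω) (F : Ω → ℂ) : n6 μ F ^ 3 = ∫⁻ z, ‖F z‖ₑ ^ 6 ∂μ := by
  unfold n6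
  rw [← ENNReal.rpow_natCast, ← ENNReal.rpow_mul]; norm_num

lemma bi_cs (μ : Measure Ω) {F G : Ω → ℂ} (hF : Measurable F) (hG : Measurable G) :
    bi μ F G ≤ bi μ G F ^ (1 / 2 : ℝ) * (∫⁻ z, ‖G z‖ₑ ^ 6 ∂μ) ^ (1 / 2 : ℝ) := by
  have h := ENNReal.lintegral_mul_le_Lp_mul_Lq μ (p := 2) (q := 2)
    ((Real.holderConjugate_iff).2 ⟨by norm_num, by norm_num⟩) (f := fun z => ‖F z‖ₑ ^ 2 * ‖G z‖ₑ)
    (g := fun z => ‖G z‖ₑ ^ 3) ((hF.enorm.pow_const 2).mul hG.enorm).aemeasurable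
    (hG.enorm.pow_const 3).aemeasurable
  unfold bi
  calc ∫⁻ z, ‖F z‖ₑ ^ 2 * ‖G z‖ₑ ^ 4 ∂μ = ∫⁻ z, ((fun z => ‖F z‖ₑ ^ 2 * ‖G z‖ₑ) * fun z => ‖G z‖ₑ ^ 3) z ∂μ := by
        apply lintegral_congr; intro z; simp only [Pi.mul_apply]; ring
    _ ≤ _ := h
    _ = _ := by
        congr 2
        · apply lintegral_congr; intro z
          rw [show (2:ℝ) = ((2:ℕ):ℝ) by norm_num, ENNReal.rpow_natCast]; ring
        · apply lintegral_congr; intro z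
          rw [show (2:ℝ) = ((2:ℕ):ℝ) by norm_num, ENNReal.rpow_natCast]; ring

lemma bi_hol (μ : Measure Ω) {F G : Ω → ℂ} (hF : Measurable F) (hG : Measurable G) :
    bi μ F G ≤ n6 μ F * n6 μ G ^ 2 := by
  have h := ENNReal.lintegral_mul_le_Lp_mul_Lq μ (p := 3) (q := 3 / 2)
    ((Real.holderConjugate_iff).2 ⟨by norm_num, by norm_num⟩) (f := fun z => ‖F z‖ₑ ^ 2)
    (g := fun z => ‖G z‖ₑ ^ 4) (hF.enorm.pow_const 2).aemeasurable
    (hG.enorm.pow_const 4).aemeasurable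
  unfold bi
  calc ∫⁻ z, ‖F z‖ₑ ^ 2 * ‖G z‖ₑ ^ 4 ∂μ = ∫⁻ z, ((fun z => ‖F z‖ₑ ^ 2) * fun z => ‖G z‖ₑ ^ 4) z ∂μ := by
        apply lintegral_congr; intro z; simp only [Pi.mul_apply]
    _ ≤ _ := h
    _ = n6 μ F * n6 μ G ^ 2 := by
        unfold n6
        congr 1
        · congr 1
          apply lintegral_congr; intro z
          rw [← ENNReal.rpow_natCast, ← ENNReal.rpow_mul, ← ENNReal.rpow_natCast]; norm_num
        · rw [← ENNReal.rpow_natCast, ← ENNReal.rpow_mul]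
          have e1 : ∀ z, (‖G z‖ₑ ^ 4) ^ (3 / 2 : ℝ) = ‖G z‖ₑ ^ 6 := fun z => by
            rw [← ENNReal.rpow_natCast, ← ENNReal.rpow_mul, ← ENNReal.rpow_natCast]; norm_num
          simp only [e1]
          norm_num

lemma blk_meas {f : ℤ → Ω → ℂ} (hf : ∀ m, Measurable (f m)) (p : ℕ) (i : ℤ) : Measurable (blk f p i) := by
  unfold blk
  exact Finset.measurable_sum _ fun m _ => hf m

/-- trivial decoupling -/
lemma n6_triv (μ : Measure Ω) {f : ℤ → Ω → ℂ} (hf : ∀ m, Measurable (f m)) (p : ℕ) (i : ℤ) :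
    n6 μ (blk f p i) ≤ 2 ^ (2 * p) * sq μ f p i := by
  have hc : (bl p i).card ≤ 2 ^ p := (card_sub p i).le
  have h : ∫⁻ z, ‖blk f p i z‖ₑ ^ 6 ∂μ ≤ (((2 ^ p : ℕ) : ℝ≥0∞)) ^ 6 * ∑ m ∈ bl p i, ∫⁻ z, ‖f m z‖ₑ ^ 6 ∂μ := by
    rw [← lintegral_finset_sum _ fun m _ => (hf m).enorm.pow_const 6, ← lintegral_const_mul _
      (Finset.measurable_sum _ fun m _ => (hf m).enorm.pow_const 6)]
    apply lintegral_mono
    intro z
    calc ‖blk f p i z‖ₑ ^ 6 ≤ (∑ m ∈ bl p i, ‖f m z‖ₑ) ^ 6 := by gcongr; exact enorm_sum_le _ _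
      _ ≤ _ := pt_triv _ _ _ hc
  calc n6 μ (blk f p i) ≤ ((((2 ^ p : ℕ) : ℝ≥0∞)) ^ 6 * ∑ m ∈ bl p i, ∫⁻ z, ‖f m z‖ₑ ^ 6 ∂μ) ^ (1 / 3 : ℝ) := by
        unfold n6; gcongr
    _ = (((2 ^ p : ℕ) : ℝ≥0∞)) ^ 2 * (∑ m ∈ bl p i, ∫⁻ z, ‖f m z‖ₑ ^ 6 ∂μ) ^ (1 / 3 : ℝ) := by
        rw [ENNReal.mul_rpow_of_nonneg _ _ (by norm_num), third_six]
    _ ≤ (((2 ^ p : ℕ) : ℝ≥0∞)) ^ 2 * ∑ m ∈ bl p i, (∫⁻ z, ‖f m z‖ₑ ^ 6 ∂μ) ^ (1 / 3 : ℝ) := by
        gcongr; exact third_sum _ _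
    _ = _ := by
        unfold sq n6
        congr 1
        push_cast
        rw [← pow_mul, mul_comm]

/-- broad-narrow -/
lemma n6_broad (μ : Measure Ω) {f : ℤ → Ω → ℂ} (hf : ∀ m, Measurable (f m)) {p r : ℕ} (hr : r ≤ p) (i : ℤ) :
    n6 μ (blk f p i) ≤ 2 ^ 6 * ∑ a ∈ sub r i, n6 μ (blk f (p - r) a) +
      2 ^ (2 * r + 2) * ∑ a ∈ sub r i, ∑ b ∈ sub r i with NA a b, bi μ (blk f (p - r) a) (blk f (p - r) b) ^ (1 / 3 : ℝ) := by
  have hc : (sub r i).card ≤ 2 ^ r := (card_sub r i).le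
  have hb := fun a => blk_meas hf (p - r) a
  have h : ∫⁻ z, ‖blk f p i z‖ₑ ^ 6 ∂μ ≤ 8 ^ 6 * ∑ a ∈ sub r i, ∫⁻ z, ‖blk f (p - r) a z‖ₑ ^ 6 ∂μ +
      (2 * ((2 ^ r : ℕ) : ℝ≥0∞)) ^ 6 * ∑ a ∈ sub r i, ∑ b ∈ sub r i with NA a b, bi μ (blk f (p - r) a) (blk f (p - r) b) := by
    have m1 : Measurable fun z => ∑ a ∈ sub r i, ‖blk f (p - r) a z‖ₑ ^ 6 :=
      Finset.measurable_sum _ fun a _ => (hb a).enorm.pow_const 6
    have m2 : ∀ a, Measurable fun z => ∑ b ∈ sub r i with NA a b, ‖blk f (p - r) a z‖ₑ ^ 2 * ‖blk f (p - r) b z‖ₑ ^ 4 := fun a =>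
      Finset.measurable_sum _ fun b _ => ((hb a).enorm.pow_const 2).mul ((hb b).enorm.pow_const 4)
    have m3 : Measurable fun z => ∑ a ∈ sub r i, ∑ b ∈ sub r i with NA a b, ‖blk f (p - r) a z‖ₑ ^ 2 * ‖blk f (p - r) b z‖ₑ ^ 4 :=
      Finset.measurable_sum _ fun a _ => m2 a
    have e3 : ∑ a ∈ sub r i, ∑ b ∈ sub r i with NA a b, bi μ (blk f (p - r) a) (blk f (p - r) b) =
        ∫⁻ z, ∑ a ∈ sub r i, ∑ b ∈ sub r i with NA a b, ‖blk f (p - r) a z‖ₑ ^ 2 * ‖blk f (p - r) b z‖ₑ ^ 4 ∂μ := by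
      rw [lintegral_finset_sum _ fun a _ => m2 a]
      refine Finset.sum_congr rfl fun a _ => ?_
      exact (lintegral_finset_sum (μ := μ) ((sub r i).filter fun b => NA a b)
        (f := fun b z => ‖blk f (p - r) a z‖ₑ ^ 2 * ‖blk f (p - r) b z‖ₑ ^ 4)
        fun b _ => ((hb a).enorm.pow_const 2).mul ((hb b).enorm.pow_const 4)).symm
    rw [e3, ← lintegral_finset_sum _ fun a _ => (hb a).enorm.pow_const 6, ← lintegral_const_mul _ m1,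
      ← lintegral_const_mul _ m3, ← lintegral_add_left (m1.const_mul _)]
    apply lintegral_mono
    intro z
    calc ‖blk f p i z‖ₑ ^ 6 ≤ (∑ a ∈ sub r i, ‖blk f (p - r) a z‖ₑ) ^ 6 := by
          gcongr; rw [blk_sum hr]; exact enorm_sum_le _ _
      _ ≤ _ := pt_broad _ _ _ hc
  calc n6 μ (blk f p i) ≤ (8 ^ 6 * ∑ a ∈ sub r i, ∫⁻ z, ‖blk f (p - r) a z‖ₑ ^ 6 ∂μ +
      (2 * ((2 ^ r : ℕ) : ℝ≥0∞)) ^ 6 * ∑ a ∈ sub r i, ∑ b ∈ sub r i with NA a b,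
        bi μ (blk f (p - r) a) (blk f (p - r) b)) ^ (1 / 3 : ℝ) := by
        unfold n6; gcongr
    _ ≤ (8 ^ 6 * ∑ a ∈ sub r i, ∫⁻ z, ‖blk f (p - r) a z‖ₑ ^ 6 ∂μ) ^ (1 / 3 : ℝ) +
      ((2 * ((2 ^ r : ℕ) : ℝ≥0∞)) ^ 6 * ∑ a ∈ sub r i, ∑ b ∈ sub r i with NA a b,
        bi μ (blk f (p - r) a) (blk f (p - r) b)) ^ (1 / 3 : ℝ) :=
        ENNReal.rpow_add_le_add_rpow _ _ (by norm_num) (by norm_num)
    _ = 8 ^ 2 * (∑ a ∈ sub r i, ∫⁻ z, ‖blk f (p - r) a z‖ₑ ^ 6 ∂μ) ^ (1 / 3 : ℝ) +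
      (2 * ((2 ^ r : ℕ) : ℝ≥0∞)) ^ 2 * (∑ a ∈ sub r i, ∑ b ∈ sub r i with NA a b,
        bi μ (blk f (p - r) a) (blk f (p - r) b)) ^ (1 / 3 : ℝ) := by
        rw [ENNReal.mul_rpow_of_nonneg _ _ (by norm_num), ENNReal.mul_rpow_of_nonneg _ _ (by norm_num), third_six, third_six]
    _ ≤ 8 ^ 2 * ∑ a ∈ sub r i, n6 μ (blk f (p - r) a) +
      (2 * ((2 ^ r : ℕ) : ℝ≥0∞)) ^ 2 * ∑ a ∈ sub r i, ∑ b ∈ sub r i with NA a b,
        bi μ (blk f (p - r) a) (blk f (p - r) b) ^ (1 / 3 : ℝ) := by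
        unfold n6
        gcongr
        · exact third_sum _ _
        · refine (third_sum _ _).trans (Finset.sum_le_sum fun a _ => third_sum _ _)
    _ = _ := by
        push_cast
        rw [show (8:ℝ≥0∞) ^ 2 = 2 ^ 6 by norm_num, show (2 * 2 ^ r : ℝ≥0∞) ^ 2 = 2 ^ (2 * r + 2) by ring]

end Vale.Agent.P076.DEC
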