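import Vale.Agent.P076.DEC.Four

/-! # P076 / DEC : the bilinear orthogonality from `P122.AN.StORT` (helper888) -/

open MeasureTheory Complex Set Vale.Agent.P122.C2 Vale.Agent.P122.AN
open scoped ENNReal NNReal FourierTransform

set_option linter.all false

namespace Vale.Agent.P076.DEC

/-- pieces of a planar family: `m` is the integer position (unit `2^(-n)`) along the direction `θ` -/
structure Fam (C1 : ℝ) (n : ℕ) (θ b0 : ℝ) (g : ℤ → E3 → ℂ) : Prop where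
  int : ∀ m, Integrable (g m)
  pos : ∀ m ξ, g m ξ ≠ 0 → |fw θ (hz ξ) - b0 - m / 2 ^ n| ≤ C1 / 2 ^ n
  par : ∀ m ξ, g m ξ ≠ 0 → |ξ 2 + (ξ 0 ^ 2 + ξ 1 ^ 2) / 2| ≤ C1 / 4 ^ n
  str : ∀ m m' ξ η, g m ξ ≠ 0 → g m' η ≠ 0 → |fn θ (hz ξ) - fn θ (hz η)| ≤ C1 / 2 ^ n
  cap : ∀ m ξ, g m ξ ≠ 0 → ∃ v : Fin 2 → ℝ, (∀ k, 0 ≤ v k ∧ v k ≤ 1) ∧ ∀ k, |hz ξ k - v k| ≤ C1 / 2 ^ n

/-- the frequency differences which are not resolved: small along the tangent directions -/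
def Flat (κ : ℝ) (n : ℕ) (D : E3 → Prop) : Prop :=
  ∀ Δ, D Δ → ∀ v : Fin 2 → ℝ, (∀ k, 0 ≤ v k ∧ v k ≤ 1) → |Δ 2 + v 0 * Δ 0 + v 1 * Δ 1| ≤ κ / 4 ^ n

/-! ## real arithmetic -/

lemma core1 {P1 P2 P3 P1' P2' P3' U1 U2 U3 U1' U2' U3' W1 W2 W3 W1' W2' W3' κ C1 Q : ℝ}
    (h : |(P1 + P2 + P3 - (P1' + P2' + P3')) - ((U1 ^ 2 + W1 ^ 2) + (U2 ^ 2 + W2 ^ 2) + (U3 ^ 2 + W3 ^ 2) -
      ((U1' ^ 2 + W1' ^ 2) + (U2' ^ 2 + W2' ^ 2) + (U3' ^ 2 + W3' ^ 2))) / 2| ≤ κ)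
    (p1 : |P1| ≤ C1) (p2 : |P2| ≤ C1) (p3 : |P3| ≤ C1) (p1' : |P1'| ≤ C1) (p2' : |P2'| ≤ C1) (p3' : |P3'| ≤ C1)
    (w1 : |W1| ≤ 3 * C1) (w2 : |W2| ≤ 3 * C1) (w3 : |W3| ≤ 3 * C1) (w1' : |W1'| ≤ 3 * C1) (w2' : |W2'| ≤ 3 * C1)
    (w3' : |W3'| ≤ 3 * C1) (u2 : |U2| ≤ Q) (u3 : |U3| ≤ Q) (u2' : |U2'| ≤ Q) (u3' : |U3'| ≤ Q) :
    |U1 ^ 2 - U1' ^ 2| ≤ 2 * κ + 12 * C1 + 54 * C1 ^ 2 + 4 * Q ^ 2 := by
  have sqb : ∀ {x y : ℝ}, |x| ≤ y → x ^ 2 ≤ y ^ 2 := fun {x y} hxy => sq_le_sq.2 (hxy.trans (le_abs_self y))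
  have sq3 : ∀ {x : ℝ}, |x| ≤ 3 * C1 → x ^ 2 ≤ 9 * C1 ^ 2 := fun {x} hxy => (sqb hxy).trans (le_of_eq (by ring))
  have a1 := sq3 w1; have a2 := sq3 w2; have a3 := sq3 w3; have a4 := sq3 w1'; have a5 := sq3 w2'; have a6 := sq3 w3'
  have b1 := sqb u2; have b2 := sqb u3; have b3 := sqb u2'; have b4 := sqb u3'
  have c1 := sq_nonneg W1; have c2 := sq_nonneg W2; have c3 := sq_nonneg W3
  have c4 := sq_nonneg W1'; have c5 := sq_nonneg W2'; have c6 := sq_nonneg W3'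
  have d1 := sq_nonneg U2; have d2 := sq_nonneg U3; have d3 := sq_nonneg U2'; have d4 := sq_nonneg U3'
  have hC : 0 ≤ C1 ^ 2 := sq_nonneg C1
  obtain ⟨h1, h2⟩ := abs_le.1 h
  obtain ⟨p11, p12⟩ := abs_le.1 p1
  obtain ⟨p21, p22⟩ := abs_le.1 p2
  obtain ⟨p31, p32⟩ := abs_le.1 p3
  obtain ⟨q11, q12⟩ := abs_le.1 p1'
  obtain ⟨q21, q22⟩ := abs_le.1 p2'
  obtain ⟨q31, q32⟩ := abs_le.1 p3'
  clear h p1 p2 p3 p1' p2' p3' w1 w2 w3 w1' w2' w3' u2 u3 u2' u3' sqb sq3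
  rw [abs_le]
  constructor
  · linarith
  · linarith

lemma core2 {A B T S : ℝ} (hS : 0 ≤ S) (h : |A ^ 2 - B ^ 2| ≤ T) (hs : (S ≤ A ∧ S ≤ B) ∨ (A ≤ -S ∧ B ≤ -S)) :
    |A - B| * (2 * S) ≤ T := by
  have e : A ^ 2 - B ^ 2 = (A - B) * (A + B) := by ring
  rw [e, abs_mul] at h
  have h2 : 2 * S ≤ |A + B| := by
    rcases hs with hs | hs
    · rw [abs_of_nonneg (by linarith)]; linarith
    · rw [abs_of_nonpos (by linarith)]; linarith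
  calc |A - B| * (2 * S) ≤ |A - B| * |A + B| := by gcongr
    _ ≤ T := h

lemma fw_sub (θ : ℝ) (x v : Fin 2 → ℝ) : fw θ (fun k => x k - v k) = fw θ x - fw θ v := by unfold fw; ring
lemma fn_sub (θ : ℝ) (x v : Fin 2 → ℝ) : fn θ (fun k => x k - v k) = fn θ x - fn θ v := by unfold fn; ring

lemma fw_le (θ : ℝ) (x : Fin 2 → ℝ) {b : ℝ} (h : ∀ k, |x k| ≤ b) : |fw θ x| ≤ 2 * b := by
  unfold fw
  calc |Real.cos θ * x 0 + Real.sin θ * x 1| ≤ |Real.cos θ * x 0| + |Real.sin θ * x 1| := abs_add_le _ _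
    _ = |Real.cos θ| * |x 0| + |Real.sin θ| * |x 1| := by rw [abs_mul, abs_mul]
    _ ≤ 1 * b + 1 * b := by
        gcongr
        · exact Real.abs_cos_le_one θ
        · exact h 0
        · exact Real.abs_sin_le_one θ
        · exact h 1
    _ = 2 * b := by ring

lemma fn_le (θ : ℝ) (x : Fin 2 → ℝ) {b : ℝ} (h : ∀ k, |x k| ≤ b) : |fn θ x| ≤ 2 * b := by
  unfold fn
  calc |-Real.sin θ * x 0 + Real.cos θ * x 1| ≤ |-Real.sin θ * x 0| + |Real.cos θ * x 1| := abs_add_le _ _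
    _ = |Real.sin θ| * |x 0| + |Real.cos θ| * |x 1| := by rw [abs_mul, abs_mul, abs_neg]
    _ ≤ 1 * b + 1 * b := by
        gcongr
        · exact Real.abs_sin_le_one θ
        · exact h 0
        · exact Real.abs_cos_le_one θ
        · exact h 1
    _ = 2 * b := by ring

/-- the identity of the paraboloid around the base point `v` -/
lemma par_id (n : ℕ) (θ : ℝ) (v : Fin 2 → ℝ) (ξ : E3) :
    4 ^ n * (ξ 2 + v 0 * ξ 0 + v 1 * ξ 1) = 4 ^ n * (ξ 2 + (ξ 0 ^ 2 + ξ 1 ^ 2) / 2) -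
      ((2 ^ n * (fw θ (hz ξ) - fw θ v)) ^ 2 + (2 ^ n * (fn θ (hz ξ) - fn θ v)) ^ 2) / 2 + 4 ^ n * (v 0 ^ 2 + v 1 ^ 2) / 2 := by
  have h4 : (4:ℝ) ^ n = (2 ^ n) ^ 2 := by rw [← pow_mul, mul_comm, pow_mul]; norm_num
  have hs := Real.sin_sq_add_cos_sq θ
  have e : (fw θ (hz ξ) - fw θ v) ^ 2 + (fn θ (hz ξ) - fn θ v) ^ 2 = (ξ 0 - v 0) ^ 2 + (ξ 1 - v 1) ^ 2 := by
    unfold fw fn hz
    simp only [Matrix.cons_val_zero, Matrix.cons_val_one]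
    linear_combination ((ξ 0 - v 0) ^ 2 + (ξ 1 - v 1) ^ 2) * hs
  rw [h4]
  linear_combination ((2 ^ n) ^ 2 / 2) * e

lemma scale_abs {n : ℕ} {x C : ℝ} (h : |x| ≤ C / 2 ^ n) : |2 ^ n * x| ≤ C := by
  have hp : (0:ℝ) < 2 ^ n := by positivity
  rw [abs_mul, abs_of_pos hp]
  calc 2 ^ n * |x| ≤ 2 ^ n * (C / 2 ^ n) := by gcongr
    _ = C := by field_simp

lemma scale_abs4 {n : ℕ} {x C : ℝ} (h : |x| ≤ C / 4 ^ n) : |4 ^ n * x| ≤ C := by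
  have hp : (0:ℝ) < 4 ^ n := by positivity
  rw [abs_mul, abs_of_pos hp]
  calc 4 ^ n * |x| ≤ 4 ^ n * (C / 4 ^ n) := by gcongr
    _ = C := by field_simp

lemma abs3 {a b c A B C x : ℝ} (ha : |a| ≤ A) (hb : |b| ≤ B) (hc : |c| ≤ C) (hx : x = a - b + c) : |x| ≤ A + B + C := by
  rw [hx]
  calc |a - b + c| ≤ |a - b| + |c| := abs_add_le _ _
    _ ≤ |a| + |b| + |c| := by gcongr; exact abs_sub _ _
    _ ≤ _ := by gcongr

/-- two interacting triples: the positions of the first pieces are close -/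
lemma ovl {C1 κ : ℝ} (hC1 : 0 ≤ C1) {n : ℕ} {θ b0 : ℝ} {g : ℤ → E3 → ℂ} (hg : Fam C1 n θ b0 g)
    {D : E3 → Prop} (hD : Flat κ n D) {s q : ℕ} (hs : 8 * C1 ≤ 2 ^ s) {p : ℕ} {i i' : ℤ} (hsep : Sep s p i q i')
    {m1 m1' m2 m3 m2' m3' : ℤ} (h1 : m1 ∈ bl p i) (h1' : m1' ∈ bl p i) (h2 : m2 ∈ bl q i') (h3 : m3 ∈ bl q i')
    (h2' : m2' ∈ bl q i') (h3' : m3' ∈ bl q i') {x1 x2 x3 y1 y2 y3 : E3} (g1 : g m1 x1 ≠ 0) (g2 : g m2 x2 ≠ 0)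
    (g3 : g m3 x3 ≠ 0) (k1 : g m1' y1 ≠ 0) (k2 : g m2' y2 ≠ 0) (k3 : g m3' y3 ≠ 0)
    (hd : D ((x1 + (x2 + x3)) - (y1 + (y2 + y3)))) :
    |(m1:ℝ) - m1'| ≤ 2 * C1 + (2 * κ + 12 * C1 + 54 * C1 ^ 2 + 4 * (2 ^ q + 4 * C1) ^ 2) / 2 ^ s := by
  obtain ⟨v, hv01, hv⟩ := hg.cap m2 x2 g2
  have hS : (0:ℝ) < 2 ^ s := by positivity
  set u : E3 → ℝ := fun x => 2 ^ n * (fw θ (hz x) - fw θ v) with hu
  set w : E3 → ℝ := fun x => 2 ^ n * (fn θ (hz x) - fn θ v) with hw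
  set P : E3 → ℝ := fun x => 4 ^ n * (x 2 + (x 0 ^ 2 + x 1 ^ 2) / 2) with hP
  have v1 : |2 ^ n * (fw θ (hz x2) - fw θ v)| ≤ 2 * C1 := by
    apply scale_abs
    rw [← fw_sub]
    refine (fw_le θ _ hv).trans (le_of_eq ?_)
    ring
  have v2 : |2 ^ n * (fn θ (hz x2) - fn θ v)| ≤ 2 * C1 := by
    apply scale_abs
    rw [← fn_sub]
    refine (fn_le θ _ hv).trans (le_of_eq ?_)
    ring
  have hpos : ∀ {m : ℤ} {x : E3}, g m x ≠ 0 → |2 ^ n * fw θ (hz x) - 2 ^ n * b0 - m| ≤ C1 := by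
    intro m x hx
    have := scale_abs (hg.pos m x hx)
    rwa [show (2:ℝ) ^ n * (fw θ (hz x) - b0 - m / 2 ^ n) = 2 ^ n * fw θ (hz x) - 2 ^ n * b0 - m by field_simp] at this
  have hU : ∀ {m : ℤ} {x : E3}, g m x ≠ 0 → |u x - (m - m2)| ≤ 4 * C1 := by
    intro m x hx
    have := abs3 (hpos hx) (hpos g2) v1 (x := u x - (m - m2)) (by rw [hu]; ring)
    linarith
  have hW : ∀ {m : ℤ} {x : E3}, g m x ≠ 0 → |w x| ≤ 3 * C1 := by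
    intro m x hx
    have e1 := scale_abs (hg.str m m2 x x2 hx g2)
    have : w x = 2 ^ n * (fn θ (hz x) - fn θ (hz x2)) + 2 ^ n * (fn θ (hz x2) - fn θ v) := by rw [hw]; ring
    rw [this]
    refine (abs_add_le _ _).trans ?_
    linarith
  have hPP : ∀ {m : ℤ} {x : E3}, g m x ≠ 0 → |P x| ≤ C1 := fun {m x} hx => scale_abs4 (hg.par m x hx)
  have hUq : ∀ {m : ℤ} {x : E3}, g m x ≠ 0 → m ∈ bl q i' → |u x| ≤ 2 ^ q + 4 * C1 := by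
    intro m x hx hm
    have e1 := hU hx
    have e2 : |(m:ℝ) - m2| ≤ 2 ^ q := by
      rw [mem_bl] at hm h2
      have e : |m - m2| ≤ 2 ^ q := by
        rw [abs_le]
        have : (2:ℤ) ^ q * (i' + 1) = 2 ^ q * i' + 2 ^ q := by ring
        constructor <;> linarith [hm.1, hm.2, h2.1, h2.2]
      exact_mod_cast e
    calc |u x| = |(u x - (m - m2)) + (m - m2)| := by congr 1; ring
      _ ≤ |u x - (m - m2)| + |(m:ℝ) - m2| := abs_add_le _ _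
      _ ≤ _ := by linarith
  -- the key inequality
  have hkey : |(P x1 + P x2 + P x3 - (P y1 + P y2 + P y3)) - ((u x1 ^ 2 + w x1 ^ 2) + (u x2 ^ 2 + w x2 ^ 2) +
      (u x3 ^ 2 + w x3 ^ 2) - ((u y1 ^ 2 + w y1 ^ 2) + (u y2 ^ 2 + w y2 ^ 2) + (u y3 ^ 2 + w y3 ^ 2))) / 2| ≤ κ := by
    have e := scale_abs4 (hD _ hd v hv01)
    convert! e using 2
    have i1 := par_id n θ v x1
    have i2 := par_id n θ v x2
    have i3 := par_id n θ v x3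
    have j1 := par_id n θ v y1
    have j2 := par_id n θ v y2
    have j3 := par_id n θ v y3
    simp only [PiLp.sub_apply, PiLp.add_apply, hu, hw, hP]
    linear_combination -i1 - i2 - i3 + j1 + j2 + j3
  have hT := core1 hkey (hPP g1) (hPP g2) (hPP g3) (hPP k1) (hPP k2) (hPP k3) (hW g1) (hW g2) (hW g3) (hW k1) (hW k2)
    (hW k3) (hUq g2 h2) (hUq g3 h3) (hUq k2 h2') (hUq k3 h3')
  have hside : (2 ^ s / 2 ≤ u x1 ∧ 2 ^ s / 2 ≤ u y1) ∨ (u x1 ≤ -(2 ^ s / 2) ∧ u y1 ≤ -(2 ^ s / 2)) := by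
    have e1 := abs_le.1 (hU g1)
    have e2 := abs_le.1 (hU k1)
    rw [mem_bl] at h1 h1' h2
    rcases hsep with hsep | hsep
    · right
      have f1 : m1 + 2 ^ s ≤ m2 := by linarith [h1.2, h2.1]
      have f2 : m1' + 2 ^ s ≤ m2 := by linarith [h1'.2, h2.1]
      have f1' : (m1:ℝ) + 2 ^ s ≤ m2 := by exact_mod_cast f1
      have f2' : (m1':ℝ) + 2 ^ s ≤ m2 := by exact_mod_cast f2
      constructor <;> linarith [e1.1, e1.2, e2.1, e2.2]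
    · left
      have f1 : m2 + 2 ^ s ≤ m1 := by linarith [h1.1, h2.2]
      have f2 : m2 + 2 ^ s ≤ m1' := by linarith [h1'.1, h2.2]
      have f1' : (m2:ℝ) + 2 ^ s ≤ m1 := by exact_mod_cast f1
      have f2' : (m2:ℝ) + 2 ^ s ≤ m1' := by exact_mod_cast f2
      constructor <;> linarith [e1.1, e1.2, e2.1, e2.2]
  have h5 := core2 (by positivity) hT hside
  have h6 : |u x1 - u y1| ≤ (2 * κ + 12 * C1 + 54 * C1 ^ 2 + 4 * (2 ^ q + 4 * C1) ^ 2) / 2 ^ s := by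
    rw [le_div_iff₀ hS]
    calc |u x1 - u y1| * 2 ^ s = |u x1 - u y1| * (2 * (2 ^ s / 2)) := by ring
      _ ≤ _ := h5
  have h7 := hpos g1
  have h8 := hpos k1
  have h9 : (m1:ℝ) - m1' = (2 ^ n * fw θ (hz y1) - 2 ^ n * b0 - m1') - (2 ^ n * fw θ (hz x1) - 2 ^ n * b0 - m1) +
      (u x1 - u y1) := by rw [hu]; ring
  have := abs3 h8 h7 h6 h9
  linarith

end Vale.Agent.P076.DEC
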