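import Vale.Agent.P076.DEC.Bil

/-! # P076 / DEC : the bilinear orthogonality from `P122.AN.StORT`, part 2 (helper888) -/

open MeasureTheory Complex Set Vale.Agent.P122.C2 Vale.Agent.P122.AN
open scoped ENNReal NNReal FourierTransform

set_option linter.all false

namespace Vale.Agent.P076.DEC

/-- sum of the pieces of a block, frequency side -/
noncomputable def gb (g : ℤ → E3 → ℂ) (p : ℕ) (i : ℤ) : E3 → ℂ := fun ξ => ∑ m ∈ bl p i, g m ξ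

lemma gb_int {g : ℤ → E3 → ℂ} (hg : ∀ m, Integrable (g m)) (p : ℕ) (i : ℤ) : Integrable (gb g p i) :=
  integrable_finset_sum _ fun m _ => hg m

lemma inv_gb {g : ℤ → E3 → ℂ} (hg : ∀ m, Integrable (g m)) (p : ℕ) (i : ℤ) (z : E3) :
    𝓕⁻ (gb g p i) z = blk (fun m => 𝓕⁻ (g m)) p i z := inv_sum _ _ (fun m _ => hg m) z

lemma gb_supp {g : ℤ → E3 → ℂ} {p : ℕ} {i : ℤ} {ξ : E3} (h : gb g p i ξ ≠ 0) : ∃ m ∈ bl p i, g m ξ ≠ 0 := by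
  unfold gb at h
  exact Finset.exists_ne_zero_of_sum_ne_zero h

/-- the product `F_J F_{I'}²`, frequency side -/
noncomputable def hJ (g : ℤ → E3 → ℂ) (p q : ℕ) (i' J : ℤ) : E3 → ℂ := cv (gb g p J) (cv (gb g q i') (gb g q i'))

lemma hJ_int {g : ℤ → E3 → ℂ} (hg : ∀ m, Integrable (g m)) (p q : ℕ) (i' J : ℤ) : Integrable (hJ g p q i' J) :=
  cv_int (gb_int hg _ _) (cv_int (gb_int hg _ _) (gb_int hg _ _))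

lemma inv_hJ {g : ℤ → E3 → ℂ} (hg : ∀ m, Integrable (g m)) (p q : ℕ) (i' J : ℤ) (z : E3) :
    𝓕⁻ (hJ g p q i' J) z = blk (fun m => 𝓕⁻ (g m)) p J z * blk (fun m => 𝓕⁻ (g m)) q i' z ^ 2 := by
  unfold hJ
  rw [inv_cv (gb_int hg _ _) (cv_int (gb_int hg _ _) (gb_int hg _ _)), inv_cv (gb_int hg _ _) (gb_int hg _ _),
    inv_gb hg, inv_gb hg]
  ring

lemma hJ_supp {g : ℤ → E3 → ℂ} {p q : ℕ} {i' J : ℤ} {ξ : E3} (h : hJ g p q i' J ξ ≠ 0) :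
    ∃ m1 m2 m3 x1 x2 x3, m1 ∈ bl p J ∧ m2 ∈ bl q i' ∧ m3 ∈ bl q i' ∧ g m1 x1 ≠ 0 ∧ g m2 x2 ≠ 0 ∧ g m3 x3 ≠ 0 ∧
      ξ = x1 + (x2 + x3) := by
  obtain ⟨a, e, ha, he, rfl⟩ := cv_supp h
  obtain ⟨b, c, hb, hc, rfl⟩ := cv_supp he
  obtain ⟨m1, hm1, h1⟩ := gb_supp ha
  obtain ⟨m2, hm2, h2⟩ := gb_supp hb
  obtain ⟨m3, hm3, h3⟩ := gb_supp hc
  exact ⟨m1, m2, m3, a, b, c, hm1, hm2, hm3, h1, h2, h3, rfl⟩

/-- the overlap constant -/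
noncomputable def Cn (C1 κ : ℝ) : ℕ := ⌈2 * C1 + 1 + (2 * κ + 12 * C1 + 54 * C1 ^ 2 + 4 * (1 + 4 * C1) ^ 2)⌉₊

lemma idx_close {p : ℕ} {J J0 m m0 : ℤ} (h : m ∈ bl p J) (h0 : m0 ∈ bl p J0) {x : ℝ} (hx : |(m0:ℝ) - m| ≤ x) :
    |(J0:ℝ) - J| ≤ x / 2 ^ p + 1 := by
  rw [mem_bl] at h h0
  have hp : (0:ℝ) < 2 ^ p := by positivity
  have a1 : (2:ℝ) ^ p * J ≤ m := by exact_mod_cast h.1
  have a2 : (m:ℝ) ≤ 2 ^ p * (J + 1) := by exact_mod_cast h.2.le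
  have a3 : (2:ℝ) ^ p * J0 ≤ m0 := by exact_mod_cast h0.1
  have a4 : (m0:ℝ) ≤ 2 ^ p * (J0 + 1) := by exact_mod_cast h0.2.le
  obtain ⟨b1, b2⟩ := abs_le.1 hx
  rw [div_add_one hp.ne', le_div_iff₀ hp, ← abs_of_pos hp, ← abs_mul, abs_of_pos hp, abs_le]
  constructor <;> linarith

lemma count {C1 κ : ℝ} (hC1 : 0 ≤ C1) (hκ : 0 ≤ κ) {n : ℕ} {θ b0 : ℝ} {g : ℤ → E3 → ℂ} (hg : Fam C1 n θ b0 g)
    {D : E3 → Prop} (hD : Flat κ n D) {s q r : ℕ} (hs : 8 * C1 ≤ 2 ^ s) {p d : ℕ} (hd : d ≤ p) {i i' : ℤ}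
    (hq : 2 * q ≤ s + (p - d) + r) (hsep : Sep s p i q i') {J0 : ℤ} (hJ0 : J0 ∈ sub d i) {JJ : Finset ℤ}
    (hJJ : JJ ⊆ sub d i)
    (h : ∀ J ∈ JJ, ∃ ξ η, hJ g (p - d) q i' J0 ξ ≠ 0 ∧ hJ g (p - d) q i' J η ≠ 0 ∧ D (ξ - η)) :
    JJ.card ≤ (2 * Cn C1 κ + 1) * 2 ^ r := by
  have hS : (0:ℝ) < 2 ^ s := by positivity
  have hP : (0:ℝ) < 2 ^ (p - d) := by positivity
  have hR : (1:ℝ) ≤ 2 ^ r := one_le_pow₀ (by norm_num)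
  have hcl : ∀ J ∈ JJ, |(J0:ℝ) - J| ≤ Cn C1 κ * 2 ^ r := by
    intro J hJ
    obtain ⟨ξ, η, e1, e2, e3⟩ := h J hJ
    obtain ⟨m1, m2, m3, x1, x2, x3, a1, a2, a3, a4, a5, a6, rfl⟩ := hJ_supp e1
    obtain ⟨m1', m2', m3', y1, y2, y3, b1, b2, b3, b4, b5, b6, rfl⟩ := hJ_supp e2
    have c1 : m1 ∈ bl p i := by rw [bl_biUnion hd]; exact Finset.mem_biUnion.2 ⟨J0, hJ0, a1⟩
    have c1' : m1' ∈ bl p i := by rw [bl_biUnion hd]; exact Finset.mem_biUnion.2 ⟨J, hJJ hJ, b1⟩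
    have hov := ovl hC1 hg hD hs hsep c1 c1' a2 a3 b2 b3 a4 a5 a6 b4 b5 b6 e3
    have hcl := idx_close b1 a1 hov
    refine hcl.trans ?_
    set C2 : ℝ := 2 * κ + 12 * C1 + 54 * C1 ^ 2 + 4 * (1 + 4 * C1) ^ 2 with hC2
    have hC20 : 0 ≤ C2 := by positivity
    have hq1 : (1:ℝ) ≤ 2 ^ q := one_le_pow₀ (by norm_num)
    have hT : 2 * κ + 12 * C1 + 54 * C1 ^ 2 + 4 * ((2:ℝ) ^ q + 4 * C1) ^ 2 ≤ C2 * 4 ^ q := by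
      have h4 : (4:ℝ) ^ q = (2 ^ q) ^ 2 := by rw [← pow_mul, mul_comm, pow_mul]; norm_num
      have f1 : (2:ℝ) ^ q + 4 * C1 ≤ 2 ^ q * (1 + 4 * C1) := by nlinarith
      have f2 : ((2:ℝ) ^ q + 4 * C1) ^ 2 ≤ (2 ^ q * (1 + 4 * C1)) ^ 2 := by gcongr
      have f3 : (1:ℝ) ≤ 4 ^ q := one_le_pow₀ (by norm_num)
      have f4 : 2 * κ + 12 * C1 + 54 * C1 ^ 2 ≤ (2 * κ + 12 * C1 + 54 * C1 ^ 2) * 4 ^ q :=
        le_mul_of_one_le_right (by positivity) f3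
      rw [mul_pow, ← h4] at f2
      rw [hC2]
      linarith
    have hq4 : (4:ℝ) ^ q ≤ 2 ^ s * 2 ^ (p - d) * 2 ^ r := by
      rw [show (4:ℝ) ^ q = 2 ^ (2 * q) by rw [pow_mul]; norm_num, ← pow_add, ← pow_add]
      exact pow_le_pow_right₀ (by norm_num) hq
    have hP1 : (1:ℝ) ≤ 2 ^ (p - d) := one_le_pow₀ (by norm_num)
    have g1 : (2 * C1 + (2 * κ + 12 * C1 + 54 * C1 ^ 2 + 4 * ((2:ℝ) ^ q + 4 * C1) ^ 2) / 2 ^ s) / 2 ^ (p - d) ≤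
        2 * C1 + C2 * 2 ^ r := by
      rw [add_div]
      gcongr
      · exact div_le_self (by positivity) hP1
      · rw [div_div, div_le_iff₀ (by positivity)]
        calc _ ≤ C2 * 4 ^ q := hT
          _ ≤ C2 * (2 ^ s * 2 ^ (p - d) * 2 ^ r) := by gcongr
          _ = _ := by ring
    have g2 : (2 * C1 + 1 + C2) ≤ Cn C1 κ := Nat.le_ceil _
    calc _ ≤ 2 * C1 + C2 * 2 ^ r + 1 := by linarith
      _ ≤ (2 * C1 + 1 + C2) * 2 ^ r := by nlinarith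
      _ ≤ _ := by gcongr
  have hsub : JJ ⊆ Finset.Icc (J0 - Cn C1 κ * 2 ^ r) (J0 + Cn C1 κ * 2 ^ r) := by
    intro J hJ
    have h1 := hcl J hJ
    have h2 : |J0 - J| ≤ (Cn C1 κ : ℤ) * 2 ^ r := by exact_mod_cast h1
    rw [abs_le] at h2
    rw [Finset.mem_Icc]
    constructor <;> linarith [h2.1, h2.2]
  refine (Finset.card_le_card hsub).trans ?_
  rw [Int.card_Icc]
  have : J0 + (Cn C1 κ : ℤ) * 2 ^ r + 1 - (J0 - (Cn C1 κ : ℤ) * 2 ^ r) = ((2 * Cn C1 κ * 2 ^ r + 1 : ℕ) : ℤ) := by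
    push_cast; ring
  rw [this, Int.toNat_natCast]
  have : 1 ≤ 2 ^ r := Nat.one_le_two_pow
  nlinarith

lemma measurable_wg' (M : ℕ) (θ ρ1 ρ2 ρ3 : ℝ) (s : Fin 2 → ℝ) (p : E3) :
    Measurable (fun z => wg M θ ρ1 ρ2 ρ3 s (z - p)) := by
  have hc : Continuous (gau θ ρ1 ρ2 ρ3 s) := by
    unfold gau fw Vale.Agent.P122.C2.fn dv
    simp only [Matrix.cons_val_zero, Matrix.cons_val_one]
    fun_prop
  have : Measurable (wg M θ ρ1 ρ2 ρ3 s) := by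
    unfold wg
    have := hc.measurable
    fun_prop
  exact this.comp (measurable_id.sub_const p)

/-- the measure of the weight -/
noncomputable def wm (M : ℕ) (θ ρ1 ρ2 ρ3 : ℝ) (s : Fin 2 → ℝ) (p : E3) : Measure E3 :=
  volume.withDensity fun z => wg M θ ρ1 ρ2 ρ3 s (z - p)

lemma lint_wm (M : ℕ) (θ ρ1 ρ2 ρ3 : ℝ) (s : Fin 2 → ℝ) (p : E3) {F : E3 → ℝ≥0∞} (hF : Measurable F) :
    ∫⁻ z, F z ∂(wm M θ ρ1 ρ2 ρ3 s p) = ∫⁻ z, F z * wg M θ ρ1 ρ2 ρ3 s (z - p) := by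
  unfold wm
  rw [lintegral_withDensity_eq_lintegral_mul _ (measurable_wg' M θ ρ1 ρ2 ρ3 s p) hF]
  apply lintegral_congr
  intro z
  simp only [Pi.mul_apply]
  ring

/-- **[DEC.A]** the bilinear orthogonality for planar families and box weights -/
theorem bil (hORT : StORT) (M : ℕ) {C1 κ : ℝ} (hC1 : 0 ≤ C1) (hκ : 0 ≤ κ) : ∃ c s0 : ℕ, ∀ (n : ℕ) (θ b0 : ℝ)
    (g : ℤ → E3 → ℂ) (φ ρ1 ρ2 ρ3 : ℝ) (σ : Fin 2 → ℝ) (z0 : E3), Fam C1 n θ b0 g → 0 < ρ1 → 0 < ρ2 → 0 < ρ3 →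
    Flat κ n (Dual 1 φ ρ1 ρ2 ρ3 σ) → BIL (wm M φ ρ1 ρ2 ρ3 σ z0) (fun m => 𝓕⁻ (g m)) c s0 := by
  obtain ⟨C, hC, hor⟩ := hORT M
  obtain ⟨c, hc⟩ := pow_unbounded_of_one_lt (C * (2 * Cn C1 κ + 1)) (by norm_num : (1:ℝ) < 2)
  obtain ⟨s0, hs0⟩ := pow_unbounded_of_one_lt (8 * C1) (by norm_num : (1:ℝ) < 2)
  refine ⟨c, s0, ?_⟩
  intro n θ b0 g φ ρ1 ρ2 ρ3 σ z0 hg h1 h2 h3 hD p d q s r i i' hd hs hqs hq hsep
  have hss : 8 * C1 ≤ 2 ^ s := hs0.le.trans (pow_le_pow_right₀ (by norm_num) hs)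
  have hm := fun (p : ℕ) (i : ℤ) => (blk_meas (f := fun m => 𝓕⁻ (g m)) (fun m => (continuous_inv (hg.int m)).measurable) p i)
  have key := hor ℤ (sub d i) (fun J => hJ g (p - d) q i' J) φ ρ1 ρ2 ρ3 σ ((2 * Cn C1 κ + 1) * 2 ^ r) h1 h2 h3
    (fun J _ => hJ_int hg.int _ _ _ _)
    (fun J hJ JJ hJJ hh => count hC1 hκ hg hD hss hd hq hsep hJ hJJ fun J' hJ' => by
      obtain ⟨ξ, η, e1, e2, e3⟩ := hh J' hJ'
      exact ⟨ξ, η, e1, e2, e3⟩) z0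
  have e1 : ∀ (p' : ℕ) (J : ℤ), bi (wm M φ ρ1 ρ2 ρ3 σ z0) (blk (fun m => 𝓕⁻ (g m)) p' J) (blk (fun m => 𝓕⁻ (g m)) q i') =
      ∫⁻ z, ‖𝓕⁻ (hJ g p' q i' J) z‖ₑ ^ 2 * wg M φ ρ1 ρ2 ρ3 σ (z - z0) := by
    intro p' J
    unfold bi
    rw [lint_wm (F := fun z => ‖blk (fun m => 𝓕⁻ (g m)) p' J z‖ₑ ^ 2 * ‖blk (fun m => 𝓕⁻ (g m)) q i' z‖ₑ ^ 4) _ _ _ _ _ _ _
      (((hm p' J).enorm.pow_const 2).mul ((hm q i').enorm.pow_const 4))]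
    apply lintegral_congr
    intro z
    rw [inv_hJ hg.int, enorm_mul, enorm_pow]
    ring
  have e2 : bi (wm M φ ρ1 ρ2 ρ3 σ z0) (blk (fun m => 𝓕⁻ (g m)) p i) (blk (fun m => 𝓕⁻ (g m)) q i') =
      ∫⁻ z, ‖∑ J ∈ sub d i, 𝓕⁻ (hJ g (p - d) q i' J) z‖ₑ ^ 2 * wg M φ ρ1 ρ2 ρ3 σ (z - z0) := by
    unfold bi
    rw [lint_wm (F := fun z => ‖blk (fun m => 𝓕⁻ (g m)) p i z‖ₑ ^ 2 * ‖blk (fun m => 𝓕⁻ (g m)) q i' z‖ₑ ^ 4) _ _ _ _ _ _ _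
      (((hm p i).enorm.pow_const 2).mul ((hm q i').enorm.pow_const 4))]
    apply lintegral_congr
    intro z
    simp only [inv_hJ hg.int]
    rw [← Finset.sum_mul, ← blk_sum hd, enorm_mul, enorm_pow]
    ring
  rw [e2]
  refine key.trans ?_
  simp only [e1]
  gcongr
  rw [show (2:ℝ≥0∞) ^ (c + r) = ENNReal.ofReal (2 ^ (c + r)) by
    rw [ENNReal.ofReal_pow (by norm_num)]; norm_num]
  apply ENNReal.ofReal_le_ofReal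
  push_cast
  rw [pow_add, ← mul_assoc]
  gcongr

end Vale.Agent.P076.DEC
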