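import Vale.Agent.P076.DEC.Bil2
import Vale.Agent.P122.H84.Ort

/-! # P076 / DEC : planar decoupling for the caps of the paraboloid in a strip (helper888) -/

open MeasureTheory Complex Set Vale.Agent.P122.C2 Vale.Agent.P122.AN
open scoped ENNReal NNReal FourierTransform

set_option linter.all false

namespace Vale.Agent.P076.DEC

lemma n6_sum_le {Ω ι : Type*} [MeasurableSpace Ω] (μ : Measure Ω) (s : Finset ι) {F : ι → Ω → ℂ}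
    (hF : ∀ k ∈ s, Measurable (F k)) {N : ℕ} (hN : s.card ≤ N) :
    n6 μ (fun z => ∑ k ∈ s, F k z) ≤ (N:ℝ≥0∞) ^ 2 * ∑ k ∈ s, n6 μ (F k) := by
  have h : ∫⁻ z, ‖∑ k ∈ s, F k z‖ₑ ^ 6 ∂μ ≤ (N : ℝ≥0∞) ^ 6 * ∑ k ∈ s, ∫⁻ z, ‖F k z‖ₑ ^ 6 ∂μ := by
    rw [← lintegral_finset_sum' _ fun k hk => ((hF k hk).enorm.pow_const 6).aemeasurable, ← lintegral_const_mul _
      (Finset.measurable_sum _ fun k hk => (hF k hk).enorm.pow_const 6)]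
    apply lintegral_mono
    intro z
    calc ‖∑ k ∈ s, F k z‖ₑ ^ 6 ≤ (∑ k ∈ s, ‖F k z‖ₑ) ^ 6 := by gcongr; exact enorm_sum_le _ _
      _ ≤ _ := pt_triv _ _ _ hN
  calc n6 μ (fun z => ∑ k ∈ s, F k z) ≤ ((N : ℝ≥0∞) ^ 6 * ∑ k ∈ s, ∫⁻ z, ‖F k z‖ₑ ^ 6 ∂μ) ^ (1 / 3 : ℝ) := by
        unfold n6; gcongr
    _ = (N : ℝ≥0∞) ^ 2 * (∑ k ∈ s, ∫⁻ z, ‖F k z‖ₑ ^ 6 ∂μ) ^ (1 / 3 : ℝ) := by
        rw [ENNReal.mul_rpow_of_nonneg _ _ (by norm_num), third_six]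
    _ ≤ _ := by
        unfold n6
        gcongr
        exact third_sum _ _

/-- planar decoupling for families indexed by positions -/
theorem dec_fam (M : ℕ) {η C1 κ : ℝ} (hη : 0 < η) (hC1 : 0 ≤ C1) (hκ : 0 ≤ κ) : ∃ a : ℝ, 0 ≤ a ∧ ∀ (n : ℕ) (θ b0 : ℝ)
    (g : ℤ → E3 → ℂ) (φ ρ1 ρ2 ρ3 : ℝ) (σ : Fin 2 → ℝ) (z0 : E3), Fam C1 n θ b0 g → 0 < ρ1 → 0 < ρ2 → 0 < ρ3 →
    Flat κ n (Dual 1 φ ρ1 ρ2 ρ3 σ) → ∀ (j : ℕ) (i : ℤ), n6 (wm M φ ρ1 ρ2 ρ3 σ z0) (blk (fun m => 𝓕⁻ (g m)) j i) ≤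
      E (a + η * j) * sq (wm M φ ρ1 ρ2 ρ3 σ z0) (fun m => 𝓕⁻ (g m)) j i := by
  obtain ⟨c, s0, hb⟩ := bil Vale.Agent.P122.H84.stORT M hC1 hκ
  obtain ⟨a, ha, h⟩ := dec_abs η hη c s0
  refine ⟨a, ha, ?_⟩
  intro n θ b0 g φ ρ1 ρ2 ρ3 σ z0 hg h1 h2 h3 hD j i
  exact h _ _ (fun m => (continuous_inv (hg.int m)).measurable) (hb n θ b0 g φ ρ1 ρ2 ρ3 σ z0 hg h1 h2 h3 hD) j i

/-! ## the fibres -/

/-- position of the cap `τ` -/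
noncomputable def ps (n : ℕ) (θ : ℝ) (τ : Z2) : ℤ := ⌊fw θ (fun k => (τ k : ℝ))⌋ + 2 ^ (n + 1)

lemma rot_inv (θ : ℝ) (x : Fin 2 → ℝ) : x 0 = Real.cos θ * fw θ x - Real.sin θ * fn θ x ∧
    x 1 = Real.sin θ * fw θ x + Real.cos θ * fn θ x := by
  have hs := Real.sin_sq_add_cos_sq θ
  unfold fw fn
  constructor
  · linear_combination (-x 0) * hs
  · linear_combination (-x 1) * hs

lemma coord_le (θ : ℝ) (x : Fin 2 → ℝ) (k : Fin 2) : |x k| ≤ |fw θ x| + |fn θ x| := by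
  obtain ⟨h0, h1⟩ := rot_inv θ x
  have hc := Real.abs_cos_le_one θ
  have hs := Real.abs_sin_le_one θ
  fin_cases k
  · show |x 0| ≤ _
    rw [h0]
    calc |Real.cos θ * fw θ x - Real.sin θ * fn θ x| ≤ |Real.cos θ * fw θ x| + |Real.sin θ * fn θ x| := abs_sub _ _
      _ = |Real.cos θ| * |fw θ x| + |Real.sin θ| * |fn θ x| := by rw [abs_mul, abs_mul]
      _ ≤ 1 * |fw θ x| + 1 * |fn θ x| := by gcongr
      _ = _ := by ring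
  · show |x 1| ≤ _
    rw [h1]
    calc |Real.sin θ * fw θ x + Real.cos θ * fn θ x| ≤ |Real.sin θ * fw θ x| + |Real.cos θ * fn θ x| := abs_add_le _ _
      _ = |Real.sin θ| * |fw θ x| + |Real.cos θ| * |fn θ x| := by rw [abs_mul, abs_mul]
      _ ≤ 1 * |fw θ x| + 1 * |fn θ x| := by gcongr
      _ = _ := by ring

lemma fib_card {C0 : ℝ} (hC0 : 0 ≤ C0) {n : ℕ} {θ r : ℝ} {G : Finset Z2}
    (hG : ∀ τ ∈ G, |fn θ (fun k => (τ k : ℝ)) - r| ≤ C0) (m : ℤ) :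
    (G.filter fun τ => ps n θ τ = m).card ≤ (2 * ⌈1 + 2 * C0⌉₊ + 1) ^ 2 := by
  rcases (G.filter fun τ => ps n θ τ = m).eq_empty_or_nonempty with h | ⟨τ0, h0⟩
  · rw [h]; simp
  have hsub : (G.filter fun τ => ps n θ τ = m) ⊆
      Fintype.piFinset fun k => Finset.Icc (τ0 k - ⌈1 + 2 * C0⌉₊) (τ0 k + ⌈1 + 2 * C0⌉₊) := by
    intro τ hτ
    rw [Finset.mem_filter] at hτ h0
    rw [Fintype.mem_piFinset]
    intro k
    have e1 : ⌊fw θ (fun k => (τ k : ℝ))⌋ = ⌊fw θ (fun k => (τ0 k : ℝ))⌋ := by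
      have a1 := hτ.2; have a2 := h0.2
      unfold ps at a1 a2
      omega
    have e2 : |fw θ (fun k => (τ k : ℝ) - τ0 k)| ≤ 1 := by
      have e := fw_sub θ (fun k => (τ k : ℝ)) (fun k => (τ0 k : ℝ))
      rw [e, abs_le]
      have b1 := Int.floor_le (fw θ (fun k => (τ k : ℝ)))
      have b2 := Int.lt_floor_add_one (fw θ (fun k => (τ k : ℝ)))
      have b3 := Int.floor_le (fw θ (fun k => (τ0 k : ℝ)))
      have b4 := Int.lt_floor_add_one (fw θ (fun k => (τ0 k : ℝ)))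
      rw [e1] at b1 b2
      constructor <;> linarith
    have e3 : |fn θ (fun k => (τ k : ℝ) - τ0 k)| ≤ 2 * C0 := by
      have e := fn_sub θ (fun k => (τ k : ℝ)) (fun k => (τ0 k : ℝ))
      rw [e]
      have b1 := abs_le.1 (hG τ hτ.1)
      have b2 := abs_le.1 (hG τ0 h0.1)
      rw [abs_le]
      constructor <;> linarith [b1.1, b1.2, b2.1, b2.2]
    have e4 : |(τ k : ℝ) - τ0 k| ≤ 1 + 2 * C0 := (coord_le θ (fun k => (τ k : ℝ) - τ0 k) k).trans (by linarith)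
    have e5 : |(τ k : ℝ) - τ0 k| ≤ (⌈1 + 2 * C0⌉₊ : ℝ) := e4.trans (Nat.le_ceil _)
    have e6 : |τ k - τ0 k| ≤ (⌈1 + 2 * C0⌉₊ : ℤ) := by exact_mod_cast e5
    rw [abs_le] at e6
    rw [Finset.mem_Icc]
    constructor <;> linarith [e6.1, e6.2]
  refine (Finset.card_le_card hsub).trans ?_
  rw [Fintype.card_piFinset]
  simp only [Int.card_Icc, Finset.prod_const, Finset.card_univ, Fintype.card_fin, Fin.prod_univ_two]
  have : ∀ x : ℤ, (x + (⌈1 + 2 * C0⌉₊ : ℤ) + 1 - (x - (⌈1 + 2 * C0⌉₊ : ℤ))).toNat = 2 * ⌈1 + 2 * C0⌉₊ + 1 := by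
    intro x
    have : x + (⌈1 + 2 * C0⌉₊ : ℤ) + 1 - (x - (⌈1 + 2 * C0⌉₊ : ℤ)) = ((2 * ⌈1 + 2 * C0⌉₊ + 1 : ℕ) : ℤ) := by push_cast; ring
    rw [this, Int.toNat_natCast]
  rw [this, this]
  exact le_of_eq (by ring)

end Vale.Agent.P076.DEC
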