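import Vale.Agent.P076.DEC.Abs

/-! # P076 / DEC : the induction (helper888) -/

open MeasureTheory Set
open scoped ENNReal NNReal

set_option linter.all false

namespace Vale.Agent.P076.DEC

variable {Ω : Type*} [MeasurableSpace Ω]

/-- powers of two -/
noncomputable def E (x : ℝ) : ℝ≥0∞ := (2:ℝ≥0∞) ^ x

lemma E_add (x y : ℝ) : E (x + y) = E x * E y := ENNReal.rpow_add _ _ (by norm_num) (by norm_num)

lemma E_mono {x y : ℝ} (h : x ≤ y) : E x ≤ E y := ENNReal.rpow_le_rpow_of_exponent_le (by norm_num) h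

lemma E_rpow (x y : ℝ) : E x ^ y = E (x * y) := (ENNReal.rpow_mul _ _ _).symm

lemma E_pow (x : ℝ) (k : ℕ) : E x ^ k = E (x * k) := by rw [← ENNReal.rpow_natCast, E_rpow]

lemma E_nat (k : ℕ) : (2:ℝ≥0∞) ^ k = E k := (ENNReal.rpow_natCast _ _).symm

lemma half_sq (T : ℝ≥0∞) : (T ^ 2) ^ (1 / 2 : ℝ) = T := by
  rw [← ENNReal.rpow_natCast, ← ENNReal.rpow_mul]; norm_num

/-- algebra of one step -/
lemma step_alg (x y S T : ℝ≥0∞) :
    (x * S * T ^ 2) ^ (1 / 2 : ℝ) * ((y * S) ^ 3) ^ (1 / 2 : ℝ) = x ^ (1 / 2 : ℝ) * y ^ (3 / 2 : ℝ) * (S ^ 2 * T) := by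
  have e1 : ((y * S) ^ 3) ^ (1 / 2 : ℝ) = y ^ (3 / 2 : ℝ) * S ^ (3 / 2 : ℝ) := by
    rw [← ENNReal.rpow_natCast, ← ENNReal.rpow_mul, ENNReal.mul_rpow_of_nonneg _ _ (by norm_num)]
    norm_num
  have e2 : (x * S * T ^ 2) ^ (1 / 2 : ℝ) = x ^ (1 / 2 : ℝ) * S ^ (1 / 2 : ℝ) * T := by
    rw [ENNReal.mul_rpow_of_nonneg _ _ (by norm_num), ENNReal.mul_rpow_of_nonneg _ _ (by norm_num), half_sq]
  have e3 : S ^ (1 / 2 : ℝ) * S ^ (3 / 2 : ℝ) = S ^ 2 := by
    rw [← ENNReal.rpow_add_of_nonneg _ _ (by norm_num) (by norm_num), ← ENNReal.rpow_natCast]; norm_num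
  rw [e1, e2, ← e3]
  ring

section

variable {μ : Measure Ω} {f : ℤ → Ω → ℂ} (hf : ∀ m, Measurable (f m)) {c s0 : ℕ} (hB : BIL μ f c s0)

include hf hB

lemma claim {j r N : ℕ} {a η : ℝ} (hη : 0 ≤ η) (ha : 0 ≤ a) (hr : 1 ≤ r) (hs0 : s0 ≤ r) (hN : 1 ≤ N) (hj : 2 ^ N * r ≤ j)
    (IH : ∀ j' < j, ∀ i, n6 μ (blk f j' i) ≤ E (a + η * j') * sq μ f j' i) :
    ∀ l k : ℕ, k + l = N → ∀ (d : ℕ) (i i' : ℤ), r ≤ d → d ≤ 2 ^ k * r → Sep (j - r) (j - d) i (j - 2 ^ k * r) i' →
      bi μ (blk f (j - d) i) (blk f (j - 2 ^ k * r) i') ≤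
        E (2 * (c + r) + 3 * a + 3 * η * j - η * r * 2 ^ k * l) * (sq μ f (j - d) i * sq μ f (j - 2 ^ k * r) i' ^ 2) := by
  intro l
  induction l with
  | zero =>
    intro k hk d i i' hd hd' hsep
    have hkN : k = N := by omega
    subst hkN
    have h2 : 1 ≤ 2 ^ k * r := Nat.one_le_iff_ne_zero.2 (by positivity)
    have h1 := bi_hol μ (blk_meas hf (j - d) i) (blk_meas hf (j - 2 ^ k * r) i')
    refine h1.trans ?_
    have i1 := IH (j - d) (by omega) i
    have i2 := IH (j - 2 ^ k * r) (by omega) i'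
    calc n6 μ (blk f (j - d) i) * n6 μ (blk f (j - 2 ^ k * r) i') ^ 2
        ≤ (E (a + η * (j - d : ℕ)) * sq μ f (j - d) i) * (E (a + η * (j - 2 ^ k * r : ℕ)) * sq μ f (j - 2 ^ k * r) i') ^ 2 := by
          gcongr
      _ ≤ (E (a + η * j) * sq μ f (j - d) i) * (E (a + η * j) * sq μ f (j - 2 ^ k * r) i') ^ 2 := by
          gcongr
          · exact E_mono (by gcongr; exact_mod_cast Nat.sub_le _ _)
          · exact E_mono (by gcongr; exact_mod_cast Nat.sub_le _ _)
      _ = E (a + η * j) ^ 3 * (sq μ f (j - d) i * sq μ f (j - 2 ^ k * r) i' ^ 2) := by ring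
      _ ≤ _ := by
          gcongr
          rw [E_pow]
          apply E_mono
          push_cast
          have : (0:ℝ) ≤ c := by positivity
          have : (0:ℝ) ≤ r := by positivity
          linarith
  | succ l ih =>
    intro k hk d i i' hd hd' hsep
    have hkN : k + 1 ≤ N := by omega
    have h2 : 1 ≤ 2 ^ k * r := Nat.one_le_iff_ne_zero.2 (by positivity)
    have h3 : 2 ^ (k + 1) * r ≤ j := le_trans (Nat.mul_le_mul_right _ (Nat.pow_le_pow_right (by norm_num) hkN)) hj
    have h4 : 2 ^ (k + 1) * r = 2 * (2 ^ k * r) := by ring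
    have h5 : r ≤ 2 ^ k * r := Nat.le_mul_of_pos_left _ (by positivity)
    set q := j - 2 ^ k * r with hq
    set e := 2 ^ (k + 1) * r - d with he
    have hpe : j - d - e = j - 2 ^ (k + 1) * r := by omega
    have hb := hB (j - d) e q (j - r) r i i' (by omega) (by omega) (by omega) (by omega) hsep
    refine hb.trans ?_
    have hterm : ∀ J ∈ sub e i, bi μ (blk f (j - d - e) J) (blk f q i') ≤
        E ((2 * (c + r) + 3 * a + 3 * η * j - η * r * 2 ^ (k + 1) * l) / 2) * E (3 / 2 * (a + η * q)) *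
          (sq μ f q i' ^ 2 * sq μ f (j - d - e) J) := by
      intro J hJ
      have hsep' : Sep (j - r) q i' (j - 2 ^ (k + 1) * r) J := by
        have := (hsep.mono_left (d := e) (by omega) hJ).symm
        rwa [hpe] at this
      have c1 := ih (k + 1) (by omega) (2 ^ k * r) i' J h5 (by omega) hsep'
      rw [← hpe] at c1
      have c2 := IH q (by omega) i'
      calc bi μ (blk f (j - d - e) J) (blk f q i')
          ≤ bi μ (blk f q i') (blk f (j - d - e) J) ^ (1 / 2 : ℝ) * (∫⁻ z, ‖blk f q i' z‖ₑ ^ 6 ∂μ) ^ (1 / 2 : ℝ) :=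
            bi_cs μ (blk_meas hf _ _) (blk_meas hf _ _)
        _ = bi μ (blk f q i') (blk f (j - d - e) J) ^ (1 / 2 : ℝ) * (n6 μ (blk f q i') ^ 3) ^ (1 / 2 : ℝ) := by rw [n6_cube]
        _ ≤ (E (2 * (c + r) + 3 * a + 3 * η * j - η * r * 2 ^ (k + 1) * l) * (sq μ f q i' * sq μ f (j - d - e) J ^ 2)) ^ (1 / 2 : ℝ) *
            ((E (a + η * q) * sq μ f q i') ^ 3) ^ (1 / 2 : ℝ) := by
            gcongr
        _ = _ := by
            rw [← mul_assoc (E _), step_alg, E_rpow, E_rpow]
            congr 3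
            · ring
            · ring
    calc (2:ℝ≥0∞) ^ (c + r) * ∑ J ∈ sub e i, bi μ (blk f (j - d - e) J) (blk f q i')
        ≤ 2 ^ (c + r) * ∑ J ∈ sub e i, E ((2 * (c + r) + 3 * a + 3 * η * j - η * r * 2 ^ (k + 1) * l) / 2) *
          E (3 / 2 * (a + η * q)) * (sq μ f q i' ^ 2 * sq μ f (j - d - e) J) := by
          gcongr with J hJ
          exact hterm J hJ
      _ = E (c + r) * E ((2 * (c + r) + 3 * a + 3 * η * j - η * r * 2 ^ (k + 1) * l) / 2) *
          E (3 / 2 * (a + η * q)) * (sq μ f (j - d) i * sq μ f q i' ^ 2) := by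
          rw [sq_sum (d := e) (by omega) μ f i, E_nat, ← Finset.mul_sum, ← Finset.mul_sum]
          push_cast
          ring
      _ ≤ _ := by
          gcongr
          rw [← E_add, ← E_add]
          apply E_mono
          have hqr : (q:ℝ) = j - 2 ^ k * r := by
            rw [hq, Nat.cast_sub (by omega)]; push_cast; ring
          rw [hqr]
          push_cast
          have : 0 ≤ η * r * 2 ^ k := by positivity
          rw [pow_succ]
          nlinarith

end

lemma third_cube (x T : ℝ≥0∞) : (x * T ^ 3) ^ (1 / 3 : ℝ) = x ^ (1 / 3 : ℝ) * T := by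
  rw [ENNReal.mul_rpow_of_nonneg _ _ (by norm_num), ← ENNReal.rpow_natCast T, ← ENNReal.rpow_mul]; norm_num

/-- **abstract planar decoupling**: the bilinear orthogonality `BIL` implies `ℓ²L⁶` decoupling with loss `2^(η j)` -/
theorem dec_abs (η : ℝ) (hη : 0 < η) (c s0 : ℕ) : ∃ a : ℝ, 0 ≤ a ∧ ∀ {Ω : Type} [MeasurableSpace Ω] (μ : Measure Ω)
    (f : ℤ → Ω → ℂ), (∀ m, Measurable (f m)) → BIL μ f c s0 →
    ∀ (j : ℕ) (i : ℤ), n6 μ (blk f j i) ≤ E (a + η * j) * sq μ f j i := by
  obtain ⟨N, hN⟩ := exists_nat_ge (27 / η)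
  have hN1 : 1 ≤ N := by
    by_contra h
    have : N = 0 := by omega
    subst this
    have : 0 < 27 / η := by positivity
    push_cast at hN
    linarith
  have hNη : 27 ≤ η * N := by rwa [div_le_iff₀' hη] at hN
  obtain ⟨r1, hr1⟩ := exists_nat_ge (7 / η)
  set r := r1 + c + s0 + 1 with hr
  have hrη : 7 ≤ η * r := by
    rw [div_le_iff₀' hη] at hr1
    refine hr1.trans ?_
    have : (r1:ℝ) ≤ r := by rw [hr]; push_cast; linarith [Nat.cast_nonneg (α := ℝ) c, Nat.cast_nonneg (α := ℝ) s0]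
    gcongr
  have hrc : (c:ℝ) ≤ r := by exact_mod_cast (by omega : c ≤ r)
  have hr1' : (1:ℝ) ≤ r := by exact_mod_cast (by omega : 1 ≤ r)
  refine ⟨2 * (2 ^ N * r), by positivity, ?_⟩
  intro Ω _ μ f hf hB j
  set a : ℝ := 2 * (2 ^ N * r) with ha
  have ha0 : 0 ≤ a := by positivity
  induction j using Nat.strong_induction_on with
  | _ j IH =>
    intro i
    rcases lt_or_ge j (2 ^ N * r) with hj | hj
    · refine (n6_triv μ hf j i).trans ?_
      gcongr
      rw [E_nat]
      apply E_mono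
      push_cast
      have : (j:ℝ) ≤ 2 ^ N * r := by exact_mod_cast hj.le
      have : 0 ≤ η * j := by positivity
      linarith
    · have hrj : r ≤ j := le_trans (Nat.le_mul_of_pos_left _ (by positivity)) hj
      refine (n6_broad μ hf hrj i).trans ?_
      have h1 : ∀ b ∈ sub r i, n6 μ (blk f (j - r) b) ≤ E (a + η * (j - r)) * sq μ f (j - r) b := by
        intro b _
        have := IH (j - r) (by omega) b
        rwa [Nat.cast_sub hrj] at this
      have h2 : ∀ b ∈ sub r i, ∀ b' ∈ (sub r i).filter (fun b' => NA b b'),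
          bi μ (blk f (j - r) b) (blk f (j - r) b') ^ (1 / 3 : ℝ) ≤
            E ((2 * (c + r) + 3 * a + 3 * η * j - η * r * N) / 3) * sq μ f j i := by
        intro b hb b' hb'
        rw [Finset.mem_filter] at hb'
        have hc := claim hf hB (j := j) (r := r) (N := N) (a := a) hη.le ha0 (by omega) (by omega) hN1 hj IH N 0 (by omega)
          r b b' le_rfl (by simp) (by simpa using sep_of_ne hb'.2)
        simp only [pow_zero, one_mul, mul_one] at hc
        have e1 := sq_le (p := j) (d := r) hrj μ f hb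
        have e2 := sq_le (p := j) (d := r) hrj μ f hb'.1
        calc bi μ (blk f (j - r) b) (blk f (j - r) b') ^ (1 / 3 : ℝ)
            ≤ (E (2 * (c + r) + 3 * a + 3 * η * j - η * r * N) * sq μ f j i ^ 3) ^ (1 / 3 : ℝ) := by
              gcongr
              refine hc.trans ?_
              gcongr
              calc sq μ f (j - r) b * sq μ f (j - r) b' ^ 2 ≤ sq μ f j i * sq μ f j i ^ 2 := by gcongr
                _ = _ := by ring
          _ = _ := by rw [third_cube, E_rpow]; congr 2; ring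
      have t1 : 2 ^ 6 * ∑ b ∈ sub r i, n6 μ (blk f (j - r) b) ≤ E (a + η * j - 1) * sq μ f j i := by
        calc (2:ℝ≥0∞) ^ 6 * ∑ b ∈ sub r i, n6 μ (blk f (j - r) b)
            ≤ 2 ^ 6 * ∑ b ∈ sub r i, E (a + η * (j - r)) * sq μ f (j - r) b := by
              gcongr with b hb
              exact h1 b hb
          _ = E (6 + (a + η * (j - r))) * sq μ f j i := by
              rw [← Finset.mul_sum, ← sq_sum hrj, E_nat, E_add 6, ← mul_assoc]; norm_num
          _ ≤ _ := by
              gcongr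
              apply E_mono
              linarith
      have t2 : 2 ^ (2 * r + 2) * ∑ b ∈ sub r i, ∑ b' ∈ sub r i with NA b b',
          bi μ (blk f (j - r) b) (blk f (j - r) b') ^ (1 / 3 : ℝ) ≤ E (a + η * j - 1) * sq μ f j i := by
        calc (2:ℝ≥0∞) ^ (2 * r + 2) * ∑ b ∈ sub r i, ∑ b' ∈ sub r i with NA b b',
              bi μ (blk f (j - r) b) (blk f (j - r) b') ^ (1 / 3 : ℝ)
            ≤ 2 ^ (2 * r + 2) * ∑ b ∈ sub r i, ∑ b' ∈ sub r i with NA b b',
              E ((2 * (c + r) + 3 * a + 3 * η * j - η * r * N) / 3) * sq μ f j i := by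
              gcongr with b hb b' hb'
              exact h2 b hb b' hb'
          _ ≤ 2 ^ (2 * r + 2) * ∑ b ∈ sub r i, ∑ b' ∈ sub r i,
              E ((2 * (c + r) + 3 * a + 3 * η * j - η * r * N) / 3) * sq μ f j i := by
              gcongr with b hb
              exact Finset.filter_subset _ _
          _ = E ((2 * r + 2 : ℕ) + (r + (r + (2 * (c + r) + 3 * a + 3 * η * j - η * r * N) / 3))) * sq μ f j i := by
              rw [Finset.sum_const, Finset.sum_const, card_sub, nsmul_eq_mul, nsmul_eq_mul, E_add, E_add, E_add, ← E_nat,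
                ← E_nat]
              push_cast
              ring
          _ ≤ _ := by
              gcongr
              apply E_mono
              push_cast
              have : 27 * (r:ℝ) ≤ η * r * N := by nlinarith
              linarith
      calc _ ≤ E (a + η * j - 1) * sq μ f j i + E (a + η * j - 1) * sq μ f j i := add_le_add t1 t2
        _ = E (1 + (a + η * j - 1)) * sq μ f j i := by
            rw [E_add, ← add_mul]
            congr 1
            unfold E
            rw [ENNReal.rpow_one]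
            ring
        _ = _ := by congr 2; ring

end Vale.Agent.P076.DEC
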