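import Vale.Agent.P122.AN.Defs
import Vale.Agent.P076.DEC.Ind

/-! # P076 / DEC : products of inverse Fourier transforms (helper888) -/

open MeasureTheory Complex Set Vale.Agent.P122.C2 Vale.Agent.P122.AN
open scoped ENNReal NNReal FourierTransform Convolution

set_option linter.all false

namespace Vale.Agent.P076.DEC

theorem continuous_inv {g : E3 → ℂ} (hg : Integrable g) : Continuous (𝓕⁻ g) := by
  have h : 𝓕⁻ g = fun x => 𝓕 g (-x) := by
    ext x
    exact Real.fourierInv_eq_fourier_neg _ _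
  rw [h]
  exact (VectorFourier.fourierIntegral_continuous Real.continuous_fourierChar
    (by exact continuous_inner) hg).comp continuous_neg

theorem inv_sum {ι : Type*} (s : Finset ι) (g : ι → E3 → ℂ) (hg : ∀ k ∈ s, Integrable (g k)) (z : E3) :
    𝓕⁻ (fun ξ => ∑ k ∈ s, g k ξ) z = ∑ k ∈ s, 𝓕⁻ (g k) z := by
  simp only [Real.fourierInv_eq]
  rw [← integral_finset_sum]
  · congr 1
    ext ξ
    rw [Finset.smul_sum]
  · intro k hk
    have := (Real.fourierIntegral_convergent_iff (-z)).2 (hg k hk)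
    simpa using this

/-- convolution -/
noncomputable def cv (f g : E3 → ℂ) : E3 → ℂ := f ⋆[ContinuousLinearMap.mul ℂ ℂ, volume] g

theorem cv_int {f g : E3 → ℂ} (hf : Integrable f) (hg : Integrable g) : Integrable (cv f g) :=
  hf.integrable_convolution (ContinuousLinearMap.mul ℂ ℂ) hg

theorem inv_cv {f g : E3 → ℂ} (hf : Integrable f) (hg : Integrable g) (z : E3) :
    𝓕⁻ (cv f g) z = 𝓕⁻ f z * 𝓕⁻ g z := by
  rw [Real.fourierInv_eq_fourier_neg, Real.fourierInv_eq_fourier_neg, Real.fourierInv_eq_fourier_neg]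
  exact Real.fourier_mul_convolution_eq hf hg _

theorem cv_supp {f g : E3 → ℂ} {ξ : E3} (h : cv f g ξ ≠ 0) : ∃ a b, f a ≠ 0 ∧ g b ≠ 0 ∧ ξ = a + b := by
  by_contra hcon
  push Not at hcon
  apply h
  unfold cv convolution
  rw [integral_eq_zero_of_ae]
  refine Filter.Eventually.of_forall fun t => ?_
  simp only [ContinuousLinearMap.mul_apply', Pi.zero_apply, mul_eq_zero]
  by_contra h2
  push Not at h2
  exact hcon t (ξ - t) h2.1 h2.2 (by abel)

end Vale.Agent.P076.DEC
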