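import Vale.Agent.P076.DEC.Fin
import Vale.Agent.P076.NS.Defs

/-! # P076 / DEC : `NS.StDEC` (helper888) -/

open MeasureTheory Complex Set Vale.Agent.P122.C2 Vale.Agent.P122.AN
open scoped ENNReal NNReal FourierTransform

set_option linter.all false

namespace Vale.Agent.P076.DEC

open Vale.Agent.P076.NS

/-- the admissible boxes do not resolve the tangent directions -/
lemma flat_of_Wok {C0 : ℝ} {n : ℕ} {ρ1 ρ2 ρ3 φ : ℝ} {s : Fin 2 → ℝ} (hC0 : 1 ≤ C0) (h : Wok C0 n ρ1 ρ2 ρ3 s) :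
    0 < ρ1 ∧ 0 < ρ2 ∧ 0 < ρ3 ∧ Flat (1 + 4 * C0) n (Dual 1 φ ρ1 ρ2 ρ3 s) := by
  obtain ⟨h1, h2, h3, h4⟩ := h
  have e4 : (4:ℝ) ^ n = 2 ^ (2 * n) := by rw [pow_mul]; norm_num
  rw [← e4] at h1 h2 h3 h4
  have hp : (0:ℝ) < 4 ^ n := by positivity
  have p1 : 0 < ρ1 := lt_of_lt_of_le hp h1
  have p2 : 0 < ρ2 := lt_of_lt_of_le hp h2
  have p3 : 0 < ρ3 := lt_of_lt_of_le hp h3
  refine ⟨p1, p2, p3, ?_⟩
  intro Δ hΔ v hv
  obtain ⟨d1, d2, d3⟩ := hΔ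
  set m := min ρ1 ρ2 with hm
  have pm : 0 < m := lt_min p1 p2
  have c1 : 1 / ρ1 ≤ 1 / m := one_div_le_one_div_of_le pm (min_le_left _ _)
  have c2 : 1 / ρ2 ≤ 1 / m := one_div_le_one_div_of_le pm (min_le_right _ _)
  have hk : ∀ k, |hz Δ k| ≤ 2 / m := by
    intro k
    refine (coord_le φ (hz Δ) k).trans ?_
    have : 2 / m = 1 / m + 1 / m := by ring
    linarith
  have hz0 : hz Δ 0 = Δ 0 := rfl
  have hz1 : hz Δ 1 = Δ 1 := rfl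
  have k0 := hk 0
  have k1 := hk 1
  rw [hz0] at k0
  rw [hz1] at k1
  have s0 : |s 0 - v 0| ≤ C0 * m / 4 ^ n := by rw [le_div_iff₀ hp]; exact h4 v hv 0
  have s1 : |s 1 - v 1| ≤ C0 * m / 4 ^ n := by rw [le_div_iff₀ hp]; exact h4 v hv 1
  have t0 : |(s 0 - v 0) * Δ 0| ≤ 2 * C0 / 4 ^ n := by
    rw [abs_mul]
    calc |s 0 - v 0| * |Δ 0| ≤ (C0 * m / 4 ^ n) * (2 / m) := by gcongr
      _ = 2 * C0 / 4 ^ n := by field_simp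
  have t1 : |(s 1 - v 1) * Δ 1| ≤ 2 * C0 / 4 ^ n := by
    rw [abs_mul]
    calc |s 1 - v 1| * |Δ 1| ≤ (C0 * m / 4 ^ n) * (2 / m) := by gcongr
      _ = 2 * C0 / 4 ^ n := by field_simp
  have t2 : |Δ 2 + s 0 * Δ 0 + s 1 * Δ 1| ≤ 1 / 4 ^ n := d3.trans (one_div_le_one_div_of_le hp h3)
  have e : Δ 2 + v 0 * Δ 0 + v 1 * Δ 1 = (Δ 2 + s 0 * Δ 0 + s 1 * Δ 1) - (s 0 - v 0) * Δ 0 - (s 1 - v 1) * Δ 1 := by ring
  rw [e]
  calc |(Δ 2 + s 0 * Δ 0 + s 1 * Δ 1) - (s 0 - v 0) * Δ 0 - (s 1 - v 1) * Δ 1|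
      ≤ |(Δ 2 + s 0 * Δ 0 + s 1 * Δ 1) - (s 0 - v 0) * Δ 0| + |(s 1 - v 1) * Δ 1| := abs_sub _ _
    _ ≤ |Δ 2 + s 0 * Δ 0 + s 1 * Δ 1| + |(s 0 - v 0) * Δ 0| + |(s 1 - v 1) * Δ 1| := by gcongr; exact abs_sub _ _
    _ ≤ 1 / 4 ^ n + 2 * C0 / 4 ^ n + 2 * C0 / 4 ^ n := by gcongr
    _ = (1 + 4 * C0) / 4 ^ n := by ring

/-- the family of the fibres -/
noncomputable def fam (n : ℕ) (θ : ℝ) (g : Z2 → E3 → ℂ) (G : Finset Z2) (m : ℤ) : E3 → ℂ :=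
  fun ξ => ∑ τ ∈ G.filter (fun τ => ps n θ τ = m), g τ ξ

lemma fam_Fam {C0 : ℝ} (hC0 : 1 ≤ C0) {n : ℕ} {θ r : ℝ} {g : Z2 → E3 → ℂ} {G : Finset Z2} (hg : Par C0 1 n g)
    (hG : ∀ τ ∈ G, |fn θ (slp n 1 τ) - r| ≤ C0 / 2 ^ n) : Fam (6 * C0 + 1) n θ (-2) (fam n θ g G) := by
  have hp : (0:ℝ) < 2 ^ n := by positivity
  have hex : ∀ m ξ, fam n θ g G m ξ ≠ 0 → ∃ τ ∈ G, ps n θ τ = m ∧ g τ ξ ≠ 0 := by
    intro m ξ h
    obtain ⟨τ, hτ, h⟩ := Finset.exists_ne_zero_of_sum_ne_zero h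
    rw [Finset.mem_filter] at hτ
    exact ⟨τ, hτ.1, hτ.2, h⟩
  have hsl : ∀ τ ξ, g τ ξ ≠ 0 → ∀ k, |hz ξ k - slp n 1 τ k| ≤ C0 / 2 ^ n := by
    intro τ ξ h k
    have := hg.slope τ ξ h k
    simpa [slp] using this
  refine ⟨?_, ?_, ?_, ?_, ?_⟩
  · intro m
    exact integrable_finset_sum _ fun τ _ => hg.int τ
  · intro m ξ h0
    obtain ⟨τ, hτ, rfl, h⟩ := hex m ξ h0
    have e1 := fw_le θ _ (hsl τ ξ h)
    rw [fw_sub] at e1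
    have e2 : fw θ (slp n 1 τ) = fw θ (fun k => (τ k : ℝ)) / 2 ^ n := by
      unfold slp fw; simp only [one_mul]; ring
    have b1 := Int.floor_le (fw θ (fun k => (τ k : ℝ)))
    have b2 := Int.lt_floor_add_one (fw θ (fun k => (τ k : ℝ)))
    have e3 : fw θ (hz ξ) - -2 - (ps n θ τ : ℝ) / 2 ^ n = (fw θ (hz ξ) - fw θ (slp n 1 τ)) +
        (fw θ (fun k => (τ k : ℝ)) - ⌊fw θ (fun k => (τ k : ℝ))⌋) / 2 ^ n := by
      rw [e2]; unfold ps; push_cast; field_simp; ring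
    rw [e3]
    refine (abs_add_le _ _).trans ?_
    have e4 : |(fw θ (fun k => (τ k : ℝ)) - ⌊fw θ (fun k => (τ k : ℝ))⌋) / 2 ^ n| ≤ 1 / 2 ^ n := by
      rw [abs_div, abs_of_pos hp]
      gcongr
      rw [abs_le]; constructor <;> linarith
    calc _ ≤ 2 * (C0 / 2 ^ n) + 1 / 2 ^ n := add_le_add e1 e4
      _ = (2 * C0 + 1) / 2 ^ n := by ring
      _ ≤ _ := by gcongr; linarith
  · intro m ξ h0
    obtain ⟨τ, hτ, rfl, h⟩ := hex m ξ h0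
    have e := hg.near τ ξ h
    have e2 : ξ 2 - hP (hz ξ) = ξ 2 + (ξ 0 ^ 2 + ξ 1 ^ 2) / 2 := by unfold hP hz; simp; ring
    rw [e2] at e
    refine e.trans ?_
    rw [show (2:ℝ) ^ (2 * 1 * n) = 4 ^ n by rw [mul_one, pow_mul]; norm_num]
    gcongr
    linarith
  · intro m m' ξ η h0 h0'
    obtain ⟨τ, hτ, rfl, h⟩ := hex m ξ h0
    obtain ⟨τ', hτ', rfl, h'⟩ := hex m' η h0'
    have e1 := fn_le θ _ (hsl τ ξ h)
    have e2 := fn_le θ _ (hsl τ' η h')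
    rw [fn_sub] at e1 e2
    have e3 := hG τ hτ
    have e4 := hG τ' hτ'
    have e5 : fn θ (hz ξ) - fn θ (hz η) = (fn θ (hz ξ) - fn θ (slp n 1 τ)) - (fn θ (hz η) - fn θ (slp n 1 τ')) +
        (fn θ (slp n 1 τ) - r) - (fn θ (slp n 1 τ') - r) := by ring
    have hC : (6 * C0 + 1) / 2 ^ n = 6 * (C0 / 2 ^ n) + 1 / 2 ^ n := by ring
    have hp1 : 0 < 1 / (2:ℝ) ^ n := by positivity
    rw [e5, hC]
    rw [abs_le] at *
    constructor <;> linarith [e1.1, e1.2, e2.1, e2.2, e3.1, e3.2, e4.1, e4.2]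
  · intro m ξ h0
    obtain ⟨τ, hτ, rfl, h⟩ := hex m ξ h0
    refine ⟨slp n 1 τ, ?_, ?_⟩
    · intro k
      have c := hg.cell τ ξ h k
      rw [one_mul] at c
      unfold slp
      rw [one_mul]
      have c1 : (0:ℝ) ≤ τ k := by exact_mod_cast c.1
      have c2 : (τ k : ℝ) ≤ 2 ^ n := by exact_mod_cast c.2.le
      exact ⟨by positivity, by rw [div_le_one hp]; exact c2⟩
    · intro k
      refine (hsl τ ξ h k).trans ?_
      gcongr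
      linarith

/-- **[DEC]** planar `ℓ²L⁶` decoupling of the level-one caps in a strip -/
theorem stDEC : StDEC := by
  intro ε M C0 hε hM hC0
  obtain ⟨a, ha, hdec⟩ := dec_fam M (η := ε) (C1 := 6 * C0 + 1) (κ := 1 + 4 * C0) hε (by linarith) (by linarith)
  set N : ℕ := (2 * ⌈1 + 2 * C0⌉₊ + 1) ^ 2 with hN
  refine ⟨2 ^ (a + ε * 3) * (N:ℝ) ^ 2, by positivity, ?_⟩
  intro n g G θ ρ1 ρ2 ρ3 s z0 hg ⟨ϑ, r, hG⟩ hW
  obtain ⟨p1, p2, p3, hF⟩ := flat_of_Wok (φ := θ) hC0 hW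
  have hp : (0:ℝ) < 2 ^ n := by positivity
  set μ := wm M θ ρ1 ρ2 ρ3 s z0 with hμ
  -- only the caps count
  set G' := G.filter (fun τ => ∀ k, 0 ≤ τ k ∧ τ k < 2 ^ n) with hG'
  have hz : ∀ τ, ¬ (∀ k, 0 ≤ τ k ∧ τ k < 2 ^ n) → 𝓕⁻ (g τ) = 0 := by
    intro τ hτ
    have : g τ = 0 := by
      funext ξ
      by_contra h
      apply hτ
      intro k
      have := hg.cell τ ξ h k
      rwa [one_mul] at this
    rw [this]
    funext z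
    rw [Real.fourierInv_eq]
    simp
  have hm : ∀ τ, Measurable (𝓕⁻ (g τ)) := fun τ => (continuous_inv (hg.int τ)).measurable
  have hn6 : ∀ F : E3 → ℂ, Measurable F → n6 μ F = (∫⁻ z, ‖F z‖ₑ ^ 6 * wg M θ ρ1 ρ2 ρ3 s (z - z0)) ^ (1 / 3 : ℝ) := by
    intro F hF
    unfold n6
    rw [hμ, lint_wm (F := fun z => ‖F z‖ₑ ^ 6) _ _ _ _ _ _ _ (hF.enorm.pow_const 6)]
  rw [← hn6 _ (Finset.measurable_sum _ fun τ _ => hm τ)]
  simp_rw [← hn6 _ (hm _)]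
  have hG1 : ∀ τ ∈ G', |fn ϑ (slp n 1 τ) - r| ≤ C0 / 2 ^ n := fun τ hτ => hG τ (Finset.mem_filter.1 hτ).1
  have hfam := fam_Fam hC0 hg hG1
  have hmaps : ∀ τ ∈ G', ps n ϑ τ ∈ bl (n + 3) 0 := by
    intro τ hτ
    have hc := (Finset.mem_filter.1 hτ).2
    have hc' : ∀ k, |(τ k : ℝ)| ≤ 2 ^ n := by
      intro k
      have c1 : (0:ℝ) ≤ τ k := by exact_mod_cast (hc k).1
      rw [abs_of_nonneg c1]
      exact_mod_cast (hc k).2.le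
    have hfw := abs_le.1 (fw_le ϑ (fun k => (τ k : ℝ)) hc')
    rw [mem_bl]
    unfold ps
    constructor
    · have : (-(2 ^ (n + 1)) : ℤ) ≤ ⌊fw ϑ (fun k => (τ k : ℝ))⌋ := by
        rw [Int.le_floor]
        push_cast
        rw [pow_succ]
        linarith [hfw.1]
      linarith
    · have : ⌊fw ϑ (fun k => (τ k : ℝ))⌋ < 2 ^ (n + 1) + 1 := by
        rw [Int.floor_lt]
        push_cast
        rw [pow_succ]
        linarith [hfw.2]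
      have h2 : (1:ℤ) ≤ 2 ^ (n + 1) := by exact_mod_cast Nat.one_le_two_pow
      have h3 : (2:ℤ) ^ (n + 3) * (0 + 1) = 4 * 2 ^ (n + 1) := by ring
      rw [h3]
      linarith
  -- the whole sum is one block
  have hblk : (fun z => ∑ τ ∈ G, 𝓕⁻ (g τ) z) = blk (fun m => 𝓕⁻ (fam n ϑ g G' m)) (n + 3) 0 := by
    funext z
    unfold blk
    have e1 : ∀ m, 𝓕⁻ (fam n ϑ g G' m) z = ∑ τ ∈ G'.filter (fun τ => ps n ϑ τ = m), 𝓕⁻ (g τ) z := fun m =>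
      inv_sum _ _ (fun τ _ => hg.int τ) z
    simp_rw [e1]
    rw [Finset.sum_fiberwise_of_maps_to hmaps]
    rw [hG', Finset.sum_filter]
    refine Finset.sum_congr rfl fun τ _ => ?_
    split_ifs with h
    · rfl
    · rw [hz τ h]; rfl
  rw [hblk]
  refine (hdec n ϑ (-2) (fam n ϑ g G') θ ρ1 ρ2 ρ3 s z0 hfam p1 p2 p3 hF (n + 3) 0).trans ?_
  have hsq : sq μ (fun m => 𝓕⁻ (fam n ϑ g G' m)) (n + 3) 0 ≤ (N:ℝ≥0∞) ^ 2 * ∑ τ ∈ G, n6 μ (𝓕⁻ (g τ)) := by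
    have hfib : ∀ m, n6 μ (𝓕⁻ (fam n ϑ g G' m)) ≤ (N:ℝ≥0∞) ^ 2 * ∑ τ ∈ G'.filter (fun τ => ps n ϑ τ = m), n6 μ (𝓕⁻ (g τ)) := by
      intro m
      have e1 : 𝓕⁻ (fam n ϑ g G' m) = fun z => ∑ τ ∈ G'.filter (fun τ => ps n ϑ τ = m), 𝓕⁻ (g τ) z := by
        funext z
        exact inv_sum _ _ (fun τ _ => hg.int τ) z
      rw [e1]
      refine n6_sum_le μ _ (fun τ _ => hm τ) ?_
      refine fib_card (r := 2 ^ n * r) (by linarith) ?_ m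
      intro τ hτ
      have e2 := scale_abs (hG1 τ hτ)
      rw [mul_sub] at e2
      have e3 : 2 ^ n * fn ϑ (slp n 1 τ) = fn ϑ (fun k => (τ k : ℝ)) := by
        unfold slp Vale.Agent.P122.C2.fn; simp only [one_mul]; field_simp
      rwa [e3] at e2
    unfold sq
    calc ∑ m ∈ bl (n + 3) 0, n6 μ (𝓕⁻ (fam n ϑ g G' m))
        ≤ ∑ m ∈ bl (n + 3) 0, (N:ℝ≥0∞) ^ 2 * ∑ τ ∈ G'.filter (fun τ => ps n ϑ τ = m), n6 μ (𝓕⁻ (g τ)) :=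
          Finset.sum_le_sum fun m _ => hfib m
      _ = (N:ℝ≥0∞) ^ 2 * ∑ m ∈ bl (n + 3) 0, ∑ τ ∈ G'.filter (fun τ => ps n ϑ τ = m), n6 μ (𝓕⁻ (g τ)) := by
          rw [Finset.mul_sum]
      _ ≤ (N:ℝ≥0∞) ^ 2 * ∑ τ ∈ G', n6 μ (𝓕⁻ (g τ)) := by
          gcongr
          exact le_of_eq (Finset.sum_fiberwise_of_maps_to hmaps _)
      _ ≤ _ := by
          gcongr
          exact Finset.filter_subset _ _
  calc E (a + ε * (n + 3 : ℕ)) * sq μ (fun m => 𝓕⁻ (fam n ϑ g G' m)) (n + 3) 0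
      ≤ E (a + ε * (n + 3 : ℕ)) * ((N:ℝ≥0∞) ^ 2 * ∑ τ ∈ G, n6 μ (𝓕⁻ (g τ))) := by gcongr
    _ = ENNReal.ofReal (2 ^ (a + ε * 3) * (N:ℝ) ^ 2 * 2 ^ (ε * n)) * ∑ τ ∈ G, n6 μ (𝓕⁻ (g τ)) := by
        rw [← mul_assoc]
        congr 1
        have e1 : E (a + ε * (n + 3 : ℕ)) = ENNReal.ofReal (2 ^ (a + ε * 3) * 2 ^ (ε * n)) := by
          unfold E
          rw [← Real.rpow_add (by norm_num), ← ENNReal.ofReal_rpow_of_pos (by norm_num)]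
          congr 1
          · norm_num
          · push_cast; ring
        rw [e1, show ((N:ℝ≥0∞)) ^ 2 = ENNReal.ofReal ((N:ℝ) ^ 2) by
          rw [ENNReal.ofReal_pow (by positivity), ENNReal.ofReal_natCast], ← ENNReal.ofReal_mul (by positivity)]
        congr 1
        ring

end Vale.Agent.P076.DEC
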